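import Vale.Agent.P011.E6W.H7.Kl6
import Vale.Agent.P011.E6W.H196.ExM2

/-!
Block E6W, frames: the group over the quadratic extension has no proper subgroup of finite index.
-/

open Matrix NumberField Polynomial

namespace Vale.Agent.P011.E6W.H7

open Vale.Agent.P011.MPQ Vale.Agent.P011.D4 Vale.Agent.P011.D4.Oct Vale.Agent.P011.E6 Alb
  Vale.Agent.P011.E6I Vale.Agent.P011.E6I.H68 Vale.Agent.P011.D4X.H62 Vale.Agent.P011.E6W.H684
  Vale.Agent.P011.E6W.H196

/-- **The fixer of a frame** in the group of type `²E₆`, over the quadratic extension, has no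
proper subgroup of finite index. -/
theorem gk_top {k K : Type} [Field k] [NumberField k] [Field K] [NumberField K] [Algebra k K]
    (hTI : ∀ (L : Type) [Field L] [NumberField L] [Algebra k L], TIAll k L)
    {s : K ≃ₐ[k] K} {th : K} {kap : k} (h2 : Module.finrank k K = 2)
    (hth : th * th = algebraMap k K kap) (hsth : s th = -th) {p0 p1 p2 : k}
    (hirr : Irreducible (X ^ 3 + C p2 * X ^ 2 + C p1 * X + C p0 : k[X]))
    (hd : ¬ IsSquare (dsc3 p0 p1 p2)) (hdk : ¬ IsSquare (dsc3 p0 p1 p2 * kap)) {a b c : kˣ}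
    (ha1 : ¬ IsSquare (a : k)) (ha2 : ¬ IsSquare ((a : k) * kap))
    (ha3 : ¬ IsSquare ((a : k) * dsc3 p0 p1 p2))
    (ha4 : ¬ IsSquare ((a : k) * kap * dsc3 p0 p1 p2)) (hdiv : Division a b c)
    (hdef : ∀ τ : k →+* ℝ, τ a < 0 → τ b < 0 ∧ τ c < 0)
    (hcp : ∃ τ : k →+* ℝ, τ a < 0 ∧ 0 < τ kap) {A B : Matrix (Fin 3) (Fin 3) k}
    (hA : Mp p0 p1 p2 * A = A * Mp p0 p1 p2) (hB : Mp p0 p1 p2 * B = B * Mp p0 p1 p2) {n : kˣ}
    (hN1 : A.det + kap * a * (A * B.adjugate).trace = n)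
    (hN2 : (A.adjugate * B).trace + kap * a * B.det = 0)
    {m : (Matrix (Fin 3) (Fin 3) (Qt (up K a) (up K b)))ˣ}
    (hm : ∀ i j, (m : Matrix (Fin 3) (Fin 3) (Qt (up K a) (up K b))) i j =
      ⟨algebraMap k K (A i j), th * algebraMap k K (B i j), 0, 0⟩)
    (N : Subgroup (GK s p0 p1 p2 c m (n : k))) (hN : N.index ≠ 0) : N = ⊤ := by
  obtain ⟨L, E, M, _, _, _, _, _, _, _, _, _, _, _, _, h⟩ := exists_M h2 hth hsth hirr hd hdk
  let _ : Algebra k M := Algebra.compHom M (algebraMap k K)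
  obtain ⟨_, _, f, fi, σ, x, y, H, hU, hx, hy, hxσ, hs, ha⟩ := h
  exact gk_top_of (K := K) (f := f) (fi := fi) (hTI L) H (fun _ => rfl) (fun _ => rfl) hU hth hsth hs hx hxσ hy
    (ha a ha1 ha2 ha3 ha4) hdiv hdef hcp hA hB hN1 hN2 hm N hN

end Vale.Agent.P011.E6W.H7
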