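import Vale.Agent.P011.E6.Pos3

/-!
Block E6W: the choice of the quaternion subalgebra.
-/

open NumberField IsDedekindDomain

namespace Vale.Agent.P011.E6W.H7

open Vale.Agent.P011.MPQ Vale.Agent.P011.Arith Vale.Agent.P011.D4 Vale.Agent.P011.D4.Oct
  Vale.Agent.P011.E6

variable {k : Type} [Field k] [NumberField k] {a b c : kˣ}

/-- Every element with the right signs is the square of a pure octonion. -/
theorem exists_pure_sq (a b c : kˣ) (a' : kˣ)
    (h1 : ∀ φ : k →+* ℝ, Dfn φ a b c → φ a' < 0)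
    (h2 : ∀ φ : k →+* ℝ, φ a < 0 → φ b < 0 → 0 < φ c → 0 < φ a') :
    ∃ i : Oct a b c, star i = -i ∧ dot i 1 = 0 ∧ i ≠ 0 ∧ Oct.norm i = -(a' : k) ∧
      i.fst = 0 := by
  obtain ⟨q, hq⟩ := exists_nrd (a := a) (b := b) (a' / c) (fun φ ha hb => by
    rw [Units.val_div_eq_div_val, map_div₀]
    rcases lt_trichotomy (φ c) 0 with hc | hc | hc
    · exact div_pos_of_neg_of_neg (h1 φ ⟨ha, hb, hc⟩) hc
    · exact absurd hc ((map_ne_zero φ).2 c.ne_zero)
    · exact div_pos (h2 φ ha hb hc) hc)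
  have hn : Oct.norm (⟨0, q⟩ : Oct a b c) = -(a' : k) := by
    rw [Oct.norm, hq, Units.val_div_eq_div_val]
    have := c.ne_zero
    have h0 : nrd (0 : Qt a b) = 0 := by simp [nrd]
    change nrd (0 : Qt a b) - (c : k) * (a' / c) = _
    rw [h0]
    field_simp
    ring
  refine ⟨⟨0, q⟩, ?_, ?_, ?_, hn, rfl⟩
  · apply Oct.ext <;> simp
  · simp [dot]
  · intro h
    rw [h, Oct.norm_zero] at hn
    exact a'.ne_zero (neg_eq_zero.1 hn.symm)

/-- A basic triple with prescribed squares of the first two elements. -/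
theorem exists_trip_at (hdiv : Division a b c) (a' b' : kˣ)
    (ha : ∀ φ : k →+* ℝ, Dfn φ a b c → φ a' < 0)
    (ha' : ∀ φ : k →+* ℝ, ¬ Dfn φ a b c → 0 < φ a')
    (hb : ∀ φ : k →+* ℝ, Dfn φ a b c → φ b' < 0) :
    ∃ (c' : kˣ) (i j l : Oct a b c), Trip a' b' c' i j l := by
  obtain ⟨i, hi, hi1, hi0, hin, -⟩ := exists_pure_sq a b c a' ha (fun φ _ _ h3 =>
    ha' φ fun h => absurd h.2.2 (not_lt.2 h3.le))
  have pure_of : ∀ w : Oct a b c, dot w 1 = 0 → star w = -w := by
    intro w hw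
    apply star_neg_of_pure
    rw [bil_eq_dot, hw, mul_zero]
  -- a triple which begins with `i`
  obtain ⟨j0, hj0, hj⟩ := exists_perp ![1, i, 1, 1, 1, 1, 1]
  obtain ⟨l0, hl0, hl⟩ := exists_perp ![1, i, j0, i * j0, 1, 1, 1]
  have hj1 : dot j0 1 = 0 := hj 0
  have hji : dot j0 i = 0 := hj 1
  have hl1 : dot l0 1 = 0 := hl 0
  have hli : dot l0 i = 0 := hl 1
  have hlj : dot l0 j0 = 0 := hl 2
  have hlij : dot l0 (i * j0) = 0 := hl 3
  obtain ⟨a1, b1, c1, ht⟩ := exists_trip hdiv hi hi0 (pure_of j0 hj1) hj0 (pure_of l0 hl1) hl0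
    (by rw [dot_comm, hji]) (by rw [dot_comm, hli]) (by rw [dot_comm, hlj])
    (by rw [dot_comm, hlij])
  have ha1 : a1 = a' := by
    apply Units.ext
    have h4 := ht.ii
    rw [norm_eq_of_sq hi, hin, neg_neg] at h4
    exact (smul_one_inj h4).symm
  subst ha1
  obtain ⟨Φ, hΦ, hm, hst, hno⟩ := exists_emb ht
  obtain ⟨m, hms, hm1, hm0, hmn, hmf⟩ := exists_pure_sq a1 b1 c1 b' (fun φ hd => by
    refine hb φ ?_
    by_contra hnd
    exact absurd hd.1 (not_lt.2 (ha' φ hnd).le)) (fun φ h1 h2 h3 => by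
    have hd : Dfn φ a b c := by
      by_contra hnd
      exact absurd h1 (not_lt.2 (ha' φ hnd).le)
    exact absurd (hd.trip ht).2.2 (not_lt.2 h3.le))
  -- the second element
  have h1 : star (Φ m) = -Φ m := by rw [← hst, hms, map_neg]
  have h2 : Φ m ≠ 0 := fun h => hm0 (Φ.injective (by rw [h, map_zero]))
  have e1 : Φ gi = i := by
    rw [hΦ]
    simp [Oct.emb, qemb, gi]
  have hbil : ∀ x y, bil (Φ x) (Φ y) = bil x y := fun x y => by
    rw [hΦ, hΦ]
    exact ht.triple.bil_emb x y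
  have h2k : (2 : k) ≠ 0 := two_ne_zero
  have h3 : dot i (Φ m) = 0 := by
    have h4 : bil (Φ gi) (Φ m) = 0 := by
      rw [hbil, bil_eq_dot]
      have : dot (gi : Oct a1 b1 c1) m = 0 := by
        simp [dot, gi, hmf]
      rw [this, mul_zero]
    rw [e1, bil_eq_dot] at h4
    exact (mul_eq_zero.1 h4).resolve_left h2k
  obtain ⟨l, hl0', hl'⟩ := exists_perp ![1, i, Φ m, i * Φ m, 1, 1, 1]
  have k1 : dot l 1 = 0 := hl' 0
  have k2 : dot l i = 0 := hl' 1
  have k3 : dot l (Φ m) = 0 := hl' 2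
  have k4 : dot l (i * Φ m) = 0 := hl' 3
  obtain ⟨a2, b2, c2, ht2⟩ := exists_trip hdiv hi hi0 h1 h2 (pure_of l k1) hl0' h3
    (by rw [dot_comm, k2]) (by rw [dot_comm, k3]) (by rw [dot_comm, k4])
  have ha2 : a2 = a1 := by
    apply Units.ext
    have h4 := ht2.ii
    rw [norm_eq_of_sq hi, hin, neg_neg] at h4
    exact (smul_one_inj h4).symm
  have hb2 : b2 = b' := by
    apply Units.ext
    have h4 := ht2.jj
    rw [norm_eq_of_sq h1, hno, hmn, neg_neg] at h4
    exact (smul_one_inj h4).symm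
  subst ha2 hb2
  exact ⟨c2, i, Φ m, l, ht2⟩

/-- A basic triple such that the square of the first element is a local square at given primes,
negative at the real places where the octonion algebra is definite, and positive at the others. -/
theorem exists_good_at (hdiv : Division a b c) {T : Set (HeightOneSpectrum (𝓞 k))}
    (hT : T.Finite) :
    ∃ (a' b' c' : kˣ) (i j l : Oct a b c), Trip a' b' c' i j l ∧
      (∀ v ∈ T, a' ∈ LS (v.valuation k)) ∧
      (∀ φ : k →+* ℝ, Dfn φ a b c → φ a' < 0 ∧ φ b' < 0 ∧ φ c' < 0) ∧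
      (∀ φ : k →+* ℝ, ¬ Dfn φ a b c → 0 < φ a') := by
  classical
  obtain ⟨a', h⟩ := weak_approx' hT (fun p : Pl k => match p with
    | .inl _ => (1 : kˣ)
    | .inr φ => if Dfn φ a b c then -1 else 1)
  have h1 : ∀ φ : k →+* ℝ, Dfn φ a b c → φ a' < 0 := fun φ hd => by
    have h2 : 0 < φ ((a' / (if Dfn φ a b c then -1 else 1) : kˣ) : k) :=
      h (.inr φ) inr_mem_SP
    rw [if_pos hd, Units.val_div_eq_div_val, map_div₀] at h2
    simp only [Units.val_neg, Units.val_one, map_neg, map_one, div_neg, div_one] at h2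
    linarith
  have h2 : ∀ φ : k →+* ℝ, ¬ Dfn φ a b c → 0 < φ a' := fun φ hd => by
    have h2 : 0 < φ ((a' / (if Dfn φ a b c then -1 else 1) : kˣ) : k) :=
      h (.inr φ) inr_mem_SP
    rw [if_neg hd, Units.val_div_eq_div_val, map_div₀] at h2
    simp at h2
    exact h2
  have h3 : ∀ v ∈ T, a' ∈ LS (v.valuation k) := fun v hv => by
    have h4 := h (.inl v) (inl_mem_SP.2 hv)
    change a' / 1 ∈ LS (v.valuation k) at h4
    rwa [div_one] at h4
  obtain ⟨b', h4⟩ := weak_approx' (Set.finite_empty (α := HeightOneSpectrum (𝓞 k)))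
    (fun _ : Pl k => (-1 : kˣ))
  have h5 : ∀ φ : k →+* ℝ, φ b' < 0 := fun φ => by
    have h6 : 0 < φ ((b' / (-1) : kˣ) : k) := h4 (.inr φ) inr_mem_SP
    rw [Units.val_div_eq_div_val, map_div₀] at h6
    simp only [Units.val_neg, Units.val_one, map_neg, map_one, div_neg, div_one] at h6
    linarith
  obtain ⟨c', i, j, l, ht⟩ := exists_trip_at hdiv a' b' h1 h2 fun φ _ => h5 φ
  exact ⟨a', b', c', i, j, l, ht, h3, fun φ hd => (hd.trip ht), h2⟩

end Vale.Agent.P011.E6W.H7
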