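import Vale.Agent.P011.E6H.XBr
import Vale.Agent.P011.E6O.H69.Res

/-!
Block E6W: change of the coordinates of the octonion algebra, and the final form of the openness.
-/

open NumberField

namespace Vale.Agent.P011.E6W.H7

open Vale.Agent.P011.MPQ Vale.Agent.P011.D4 Vale.Agent.P011.D4.Oct Vale.Agent.P011.E6
  Vale.Agent.P011.E6O Vale.Agent.P011.E6H

section nm

variable {F : Type} [Field F] {a b c : Fˣ}

theorem nm_nonneg (w : F →+* ℂ) (x : Alb a b c) : 0 ≤ nm w x := by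
  unfold nm qnm
  positivity

theorem qnm_add_le (w : F →+* ℂ) (x y : Qt a b) : qnm w (x + y) ≤ qnm w x + qnm w y := by
  have h : ∀ s t : F, ‖w (s + t)‖ ≤ ‖w s‖ + ‖w t‖ := fun s t => by
    rw [map_add]
    exact norm_add_le _ _
  have h1 := h x.re y.re
  have h2 := h x.imI y.imI
  have h3 := h x.imJ y.imJ
  have h4 := h x.imK y.imK
  unfold qnm
  change ‖w (x.re + y.re)‖ + ‖w (x.imI + y.imI)‖ + ‖w (x.imJ + y.imJ)‖ + ‖w (x.imK + y.imK)‖ ≤ _
  linarith

theorem nm_add_le (w : F →+* ℂ) (x y : Alb a b c) : nm w (x + y) ≤ nm w x + nm w y := by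
  have h : ∀ s t : F, ‖w (s + t)‖ ≤ ‖w s‖ + ‖w t‖ := fun s t => by
    rw [map_add]
    exact norm_add_le _ _
  have h1 := h x.d1 y.d1
  have h2 := h x.d2 y.d2
  have h3 := h x.d3 y.d3
  have g1 := qnm_add_le w x.x1.fst y.x1.fst
  have g2 := qnm_add_le w x.x1.snd y.x1.snd
  have g3 := qnm_add_le w x.x2.fst y.x2.fst
  have g4 := qnm_add_le w x.x2.snd y.x2.snd
  have g5 := qnm_add_le w x.x3.fst y.x3.fst
  have g6 := qnm_add_le w x.x3.snd y.x3.snd
  unfold nm
  change ‖w (x.d1 + y.d1)‖ + ‖w (x.d2 + y.d2)‖ + ‖w (x.d3 + y.d3)‖ +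
    (qnm w (x.x1.fst + y.x1.fst) + qnm w (x.x1.snd + y.x1.snd)) +
    (qnm w (x.x2.fst + y.x2.fst) + qnm w (x.x2.snd + y.x2.snd)) +
    (qnm w (x.x3.fst + y.x3.fst) + qnm w (x.x3.snd + y.x3.snd)) ≤ _
  linarith

theorem qnm_smul (w : F →+* ℂ) (t : F) (x : Qt a b) : qnm w (t • x) = ‖w t‖ * qnm w x := by
  unfold qnm
  change ‖w (t * x.re)‖ + ‖w (t * x.imI)‖ + ‖w (t * x.imJ)‖ + ‖w (t * x.imK)‖ = _
  simp only [map_mul, _root_.norm_mul]
  ring

theorem nm_smul (w : F →+* ℂ) (t : F) (x : Alb a b c) : nm w (t • x) = ‖w t‖ * nm w x := by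
  unfold nm
  change ‖w (t * x.d1)‖ + ‖w (t * x.d2)‖ + ‖w (t * x.d3)‖ +
    (qnm w (t • x.x1.fst) + qnm w (t • x.x1.snd)) +
    (qnm w (t • x.x2.fst) + qnm w (t • x.x2.snd)) +
    (qnm w (t • x.x3.fst) + qnm w (t • x.x3.snd)) = _
  simp only [map_mul, _root_.norm_mul, qnm_smul]
  ring

theorem nm_zero' (w : F →+* ℂ) : nm w (0 : Alb a b c) = 0 := by
  have h := nm_smul w 0 (0 : Alb a b c)
  rwa [zero_smul, map_zero, _root_.norm_zero, zero_mul] at h

theorem nm_sum_le (w : F →+* ℂ) {ι : Type} (s : Finset ι) (x : ι → Alb a b c) :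
    nm w (∑ i ∈ s, x i) ≤ ∑ i ∈ s, nm w (x i) := by
  classical
  induction s using Finset.induction_on with
  | empty => simp [nm_zero']
  | insert i s hi ih =>
    rw [Finset.sum_insert hi, Finset.sum_insert hi]
    exact (nm_add_le w _ _).trans (by linarith)

/-- The coordinates of a quaternion. -/
def q4 (x : Qt a b) : Fin 4 → F := ![x.re, x.imI, x.imJ, x.imK]

/-- The coordinates. -/
def crf (x : Alb a b c) : Fin 3 ⊕ (Fin 6 × Fin 4) → F
  | .inl i => ![x.d1, x.d2, x.d3] i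
  | .inr p => q4 (![x.x1.fst, x.x1.snd, x.x2.fst, x.x2.snd, x.x3.fst, x.x3.snd] p.1) p.2

/-- The coordinates, as a linear map. -/
def crd (a b c : Fˣ) : Alb a b c →ₗ[F] (Fin 3 ⊕ (Fin 6 × Fin 4) → F) where
  toFun := crf
  map_add' x y := by
    funext p
    rcases p with p | ⟨p, q⟩
    · fin_cases p <;> rfl
    · fin_cases p <;> fin_cases q <;> rfl
  map_smul' t x := by
    funext p
    rcases p with p | ⟨p, q⟩
    · fin_cases p <;> rfl
    · fin_cases p <;> fin_cases q <;> rfl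

theorem crd_injective : Function.Injective (crd a b c) := by
  intro x y h
  have h1 : ∀ i, crf x (.inl i) = crf y (.inl i) := fun i => congrFun h (.inl i)
  have h2 : ∀ i j, crf x (.inr (i, j)) = crf y (.inr (i, j)) := fun i j =>
    congrFun h (.inr (i, j))
  have hq : ∀ i, (∀ j, crf x (.inr (i, j)) = crf y (.inr (i, j))) →
      ![x.x1.fst, x.x1.snd, x.x2.fst, x.x2.snd, x.x3.fst, x.x3.snd] i =
        ![y.x1.fst, y.x1.snd, y.x2.fst, y.x2.snd, y.x3.fst, y.x3.snd] i := fun i h =>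
    QuaternionAlgebra.ext (h 0) (h 1) (h 2) (h 3)
  exact Alb.ext (h1 0) (h1 1) (h1 2) (Oct.ext (hq 0 (h2 0)) (hq 1 (h2 1)))
    (Oct.ext (hq 2 (h2 2)) (hq 3 (h2 3))) (Oct.ext (hq 4 (h2 4)) (hq 5 (h2 5)))

theorem q4_le (w : F →+* ℂ) (x : Qt a b) (i : Fin 4) : ‖w (q4 x i)‖ ≤ qnm w x := by
  have h1 := norm_nonneg (w x.re)
  have h2 := norm_nonneg (w x.imI)
  have h3 := norm_nonneg (w x.imJ)
  have h4 := norm_nonneg (w x.imK)
  unfold qnm
  fin_cases i
  · change ‖w x.re‖ ≤ _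
    linarith
  · change ‖w x.imI‖ ≤ _
    linarith
  · change ‖w x.imJ‖ ≤ _
    linarith
  · change ‖w x.imK‖ ≤ _
    linarith

theorem qnm_nonneg (w : F →+* ℂ) (x : Qt a b) : 0 ≤ qnm w x := by
  unfold qnm
  positivity

theorem crd_le (w : F →+* ℂ) (x : Alb a b c) (p : Fin 3 ⊕ (Fin 6 × Fin 4)) :
    ‖w (crd a b c x p)‖ ≤ nm w x := by
  have h1 := norm_nonneg (w x.d1)
  have h2 := norm_nonneg (w x.d2)
  have h3 := norm_nonneg (w x.d3)
  have g1 := qnm_nonneg w x.x1.fst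
  have g2 := qnm_nonneg w x.x1.snd
  have g3 := qnm_nonneg w x.x2.fst
  have g4 := qnm_nonneg w x.x2.snd
  have g5 := qnm_nonneg w x.x3.fst
  have g6 := qnm_nonneg w x.x3.snd
  unfold nm
  rcases p with p | ⟨p, q⟩
  · fin_cases p
    · change ‖w x.d1‖ ≤ _
      linarith
    · change ‖w x.d2‖ ≤ _
      linarith
    · change ‖w x.d3‖ ≤ _
      linarith
  · refine (q4_le w _ q).trans ?_
    fin_cases p
    · change qnm w x.x1.fst ≤ _
      linarith
    · change qnm w x.x1.snd ≤ _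
      linarith
    · change qnm w x.x2.fst ≤ _
      linarith
    · change qnm w x.x2.snd ≤ _
      linarith
    · change qnm w x.x3.fst ≤ _
      linarith
    · change qnm w x.x3.snd ≤ _
      linarith

end nm

section bound

variable {E : Type} [Field E] [NumberField E] {a b c a' b' c' : Eˣ}

/-- Linear maps are bounded. -/
theorem exists_bound_nm (Ψ : Alb a b c →ₗ[E] Alb a' b' c') :
    ∃ C : ℝ, 0 < C ∧ ∀ (w : E →+* ℂ) x, nm w (Ψ x) ≤ C * nm w x := by
  classical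
  obtain ⟨L, hL⟩ := (crd a b c).exists_leftInverse_of_injective (by
    rw [LinearMap.ker_eq_bot]
    exact crd_injective)
  have hx : ∀ x : Alb a b c, x = ∑ p, crd a b c x p • L (Pi.single p 1) := by
    intro x
    have h1 : L (crd a b c x) = x := DFunLike.congr_fun hL x
    have h2 : crd a b c x = ∑ p, crd a b c x p • (Pi.single p (1 : E)) := by
      funext q
      simp [Finset.sum_apply, Pi.single_apply]
    conv_lhs => rw [← h1, h2, map_sum]
    simp only [map_smul]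
  let C : (E →+* ℂ) → ℝ := fun w => ∑ p, nm w (Ψ (L (Pi.single p 1)))
  have hC0 : ∀ w, 0 ≤ C w := fun w => Finset.sum_nonneg fun _ _ => nm_nonneg w _
  refine ⟨1 + ∑ w, C w, by
    have := Finset.sum_nonneg fun w (_ : w ∈ Finset.univ) => hC0 w
    linarith, fun w x => ?_⟩
  have h1 : nm w (Ψ x) ≤ C w * nm w x := by
    conv_lhs => rw [hx x, map_sum]
    refine (nm_sum_le w _ _).trans ?_
    rw [Finset.sum_mul]
    refine Finset.sum_le_sum fun p _ => ?_
    rw [map_smul, nm_smul, mul_comm]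
    exact mul_le_mul_of_nonneg_left (crd_le w x p) (nm_nonneg w _)
  refine h1.trans (mul_le_mul_of_nonneg_right ?_ (nm_nonneg w x))
  have := Finset.single_le_sum (f := C) (fun w _ => hC0 w) (Finset.mem_univ w)
  linarith

end bound

section near

variable {E : Type} [Field E]

/-- The map is close to the identity at all the complex embeddings. -/
def NearA {a b c : Eˣ} (t : ℝ) (h : Alb a b c → Alb a b c) : Prop :=
  ∀ (w : E →+* ℂ) x, nm w (h x - x) ≤ t * nm w x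

variable [NumberField E] {a b c a' b' c' : Eˣ}

theorem exists_nearA (Ψ : Alb a' b' c' ≃ₗ[E] Alb a b c) :
    ∃ C : ℝ, 0 < C ∧ ∀ (φ : Alb a' b' c' ≃ₗ[E] Alb a' b' c') (t : ℝ), 0 ≤ t →
      NearA t ((Ψ.symm.trans φ).trans Ψ) → NearA (C * t) φ := by
  obtain ⟨C, hC0, hC⟩ := exists_bound_nm (Ψ : Alb a' b' c' →ₗ[E] Alb a b c)
  obtain ⟨D, hD0, hD⟩ := exists_bound_nm (Ψ.symm : Alb a b c →ₗ[E] Alb a' b' c')
  refine ⟨D * C, mul_pos hD0 hC0, fun φ t ht h w x => ?_⟩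
  have h1 := h w (Ψ x)
  have h2 : ((Ψ.symm.trans φ).trans Ψ) (Ψ x) = Ψ (φ x) := by
    change Ψ (φ (Ψ.symm (Ψ x))) = _
    rw [LinearEquiv.symm_apply_apply]
  rw [h2, ← map_sub] at h1
  have h3 := hD w (Ψ (φ x - x))
  have h4 : (Ψ.symm : Alb a b c →ₗ[E] Alb a' b' c') (Ψ (φ x - x)) = φ x - x :=
    Ψ.symm_apply_apply _
  rw [h4] at h3
  have h5 := hC w x
  have h6 : nm w (Ψ x) ≤ C * nm w x := h5
  calc nm w (φ x - x) ≤ D * nm w (Ψ (φ x - x)) := h3
    _ ≤ D * (t * nm w (Ψ x)) := mul_le_mul_of_nonneg_left h1 hD0.le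
    _ ≤ D * (t * (C * nm w x)) := by
        refine mul_le_mul_of_nonneg_left ?_ hD0.le
        exact mul_le_mul_of_nonneg_left h6 ht
    _ = D * C * t * nm w x := by ring

end near

section model

variable {k E : Type} [Field k] [NumberField k] [Field E] [NumberField E] [Algebra k E]
  {ρ σ : E ≃ₐ[k] E}
  {lam : Eˣ} {g : Fin 3 → Eˣ} {a b c : kˣ}

/-- Change of the quaternion subalgebra, for the elements close to the identity. -/
theorem near_of_model {a' b' c' : kˣ} {i j l : Oct a b c} (ht : Trip a' b' c' i j l)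
    (h : ∃ t : ℝ, 0 < t ∧ ∀ φ ∈ GO ρ σ lam g a' b' c', NearA t φ →
      φ ∈ Res ρ σ lam g a' b' c') :
    ∃ t : ℝ, 0 < t ∧ ∀ φ ∈ GO ρ σ lam g a b c, NearA t φ → φ ∈ Res ρ σ lam g a b c := by
  obtain ⟨t, ht0, h1⟩ := h
  let Ψ : AlbL E a' b' c' ≃ₗ[E] AlbL E a b c := tripA E ht
  obtain ⟨C, hC0, hC⟩ := exists_nearA Ψ
  refine ⟨t / C, div_pos ht0 hC0, fun φ hφ hn => ?_⟩
  obtain ⟨φ', hφ'⟩ : ∃ φ', φ' = (Ψ.trans φ).trans Ψ.symm := ⟨_, rfl⟩
  have e : (Ψ.symm.trans φ').trans Ψ = φ := by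
    apply LinearEquiv.ext
    intro x
    rw [hφ']
    change Ψ (Ψ.symm (φ (Ψ (Ψ.symm x)))) = φ x
    rw [LinearEquiv.apply_symm_apply, LinearEquiv.apply_symm_apply]
  obtain ⟨e1, e2⟩ := trip_Res' (ρ := ρ) (σ := σ) (lam := lam) (γ := g) ht
    (Ψ := Ψ) (tripA_apply ht) (φ := φ')
  rw [e] at e1 e2
  refine e2.1 (h1 φ' (e1.2 hφ) ?_)
  have h2 := hC φ' (t / C) (div_nonneg ht0.le hC0.le) (by rwa [e])
  rwa [mul_div_cancel₀ _ hC0.ne'] at h2

omit [NumberField k] [NumberField E] in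
theorem mem_of_mem_res {N : Subgroup (GO ρ σ lam g a b c)} (hN : N.index ≠ 0)
    {x : GO ρ σ lam g a b c} (hx : x.1 ∈ Res ρ σ lam g a b c) : x ∈ N := by
  obtain ⟨y, hy, hyx⟩ := hx
  have h2 : y = x := Subtype.ext hyx
  rw [← h2]
  exact Subgroup.mem_sInf.mp hy N hN

omit [NumberField k] [NumberField E] in
/-- From the finite residual to the final statement. -/
theorem openAt_of_near (h : ∃ t : ℝ, 0 < t ∧ ∀ φ ∈ GO ρ σ lam g a b c, NearA t φ →
      φ ∈ Res ρ σ lam g a b c) :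
    OpenAt (fun _ => True) (E6H.GHer σ g a b c ⊓ E6H.GPh ρ lam a b c) := by
  obtain ⟨t, ht, h1⟩ := h
  exact openAt_of fun N hN => ⟨t, ht, fun x hx =>
    mem_of_mem_res hN (h1 x.1 x.2 fun w y => hx w trivial y)⟩

end model

end Vale.Agent.P011.E6W.H7
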