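import Vale.Agent.P011.E6W.Defs
import Vale.Agent.P011.E6W.H7.GoodQ
import Vale.Agent.P011.E6W.H7.Model
import Vale.Agent.P011.E6W.H541.TdW
import Vale.Agent.P011.E6W.H541.Bas
import Vale.Agent.P011.E6W.H183.SqDef
import Vale.Agent.P011.E6W.H619.Open
import Vale.Agent.P011.E6H.Hyp

/-!
Block E6W: the assembly.
-/

open NumberField Matrix IsDedekindDomain

namespace Vale.Agent.P011.E6W.H7

open Vale.Agent.P011.MPQ hiding mat
open Vale.Agent.P011.D4 Vale.Agent.P011.D4.Oct Vale.Agent.P011.E6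
open Vale.Agent.P011.E6O (GO Res)
open Vale.Agent.P011.E6W.H183 Vale.Agent.P011.Arith
open Vale.Agent.P011.E6H (IsSextic IsForm OpenAt)

variable {k E : Type} [Field k] [NumberField k] [Field E] [NumberField E] [Algebra k E]
  {ρ σ : E ≃ₐ[k] E} {lam : Eˣ} {g : Fin 3 → Eˣ} {th s : E} {kap a b c : kˣ}

/-- The octonion algebra remains a division algebra after a change of coordinates. -/
theorem division_trip {a' b' c' : kˣ} {i j l : Oct a b c} (ht : Trip a' b' c' i j l)
    (h : Division (up E a) (up E b) (up E c)) : Division (up E a') (up E b') (up E c') := by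
  intro x hx
  have h1 : Oct.norm (tripO E ht x) = 0 := by
    rw [Oct.hom_norm (tripO_mul ht), hx]
  have h2 := h _ h1
  exact (tripO E ht).injective (h2.trans (map_zero _).symm)

omit [NumberField k] [NumberField E] in
/-- The octonion algebra is a division algebra. -/
theorem divk (W : WH ρ σ lam g th s kap a b c) : Division a b c := by
  intro x hx
  have h1 : oup E x = (0 : OctL E a b c) := by
    apply W.hdiv
    exact (norm_oup x).trans (by rw [hx, map_zero])
  exact Alb.oup_injective (h1.trans oup_zero.symm)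

/-- Change of the coordinates of the octonion algebra. -/
theorem model {a' b' c' : kˣ} {i j l : Oct a b c} (W : WH ρ σ lam g th s kap a b c)
    (ht : Trip a' b' c' i j l) : WH ρ σ lam g th s kap a' b' c' :=
  { h6 := W.h6
    hρ := W.hρ
    ρ3 := W.ρ3
    rel := W.rel
    th2 := W.th2
    ρth := W.ρth
    σth := W.σth
    ρlam := W.ρlam
    hlam := W.hlam
    hdiv := division_trip ht W.hdiv }

/-- **The elements close to the identity belong to the finite residual**, from the blocks. -/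
theorem near_res (W : WH ρ σ lam g th s kap a b c)
    (hSix : ∀ {a b c : kˣ} (W : WH ρ σ lam g th s kap a b c),
      One.Tdiv k (KW W) (BW W) = ∅ → SixAt W)
    (hFr : ∀ {a b c : kˣ} (_ : WH ρ σ lam g th s kap a b c)
      (_ : ∀ τ : k →+* ℝ, τ a < 0 → τ b < 0 ∧ τ c < 0) {z₀ v₀ : Matrix (Fin 3) (Fin 3) E}
      {q₁ q₀ : k} {w₀ : E →+* ℝ}, Base ρ σ lam g a b c z₀ v₀ q₁ q₀ w₀ →
      SqRes ρ σ lam g a b c → FrRes ρ σ lam g a b c z₀ v₀) :
    ∃ t : ℝ, 0 < t ∧ ∀ φ ∈ GO ρ σ lam g a b c, NearA t φ → φ ∈ Res ρ σ lam g a b c := by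
  obtain ⟨T, hT, h1⟩ := H541.exists_TW W
  obtain ⟨a', b', c', i, j, l, ht, h2, h3, h4⟩ := exists_good_at (divk W) hT
  have W' : WH ρ σ lam g th s kap a' b' c' := model W ht
  have hTd := h1 a' b' c' W' h2
  have hgood : ∀ τ : k →+* ℝ, τ a' < 0 → τ b' < 0 ∧ τ c' < 0 := by
    intro τ hτ
    by_cases hd : Dfn τ a b c
    · exact (h3 τ hd).2
    · exact absurd hτ (not_lt.2 (h4 τ hd).le)
  have hSq := sqRes W' (hSix W' hTd) hTd
  obtain ⟨z₀, v₀, q₁, q₀, w₀, B⟩ := H541.exists_base W'
  obtain ⟨t, ht0, h5⟩ := H619.openRes W' B hSq (hFr W' hgood B hSq)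
  exact near_of_model ht ⟨t, ht0, fun φ hφ hn => h5 φ hφ hn⟩

omit [NumberField k] [NumberField E] in
/-- The hypotheses of the proof from those of the final statement. -/
theorem exists_WH (h : IsSextic ρ σ kap) (hC : Division (up E a) (up E b) (up E c))
    (hg : IsForm ρ σ lam g) : ∃ th s : E, WH ρ σ lam g th s kap a b c := by
  obtain ⟨th, h1, h2, h3⟩ := h.sq
  obtain ⟨s, -, g1, g2, g0⟩ := hg.rel
  obtain ⟨x, hx⟩ := h.hρ
  exact ⟨th, s,
    { h6 := h.h6
      hρ := fun e => hx (by rw [e]; rfl)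
      ρ3 := h.ρ3
      rel :=
        { σ2 := h.σ2
          comm := h.comm
          σg := hg.σg
          g1 := g1
          g2 := g2
          g0 := g0 }
      th2 := h1
      ρth := h2
      σth := h3
      ρlam := hg.ρlam
      hlam := hg.hlam
      hdiv := hC }⟩

end Vale.Agent.P011.E6W.H7
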