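import Vale.Agent.P011.E6I.H68.Fk4
import Vale.Agent.P011.D4X.H62.KC
import Vale.Agent.P011.D4Y.Defs
import Vale.Agent.P011.E6.H64.Act

/-!
Block E6W, frames: change of the ground field in the space of hermitian matrices.
-/

open Matrix

namespace Vale.Agent.P011.E6W.H7

open Vale.Agent.P011.MPQ Vale.Agent.P011.D4 Vale.Agent.P011.D4.Oct Vale.Agent.P011.E6 Alb
  Vale.Agent.P011.E6I Vale.Agent.P011.E6I.H68 Vale.Agent.P011.D4X.H62

section hmat

variable {F : Type} [Field F] {a b c : Fˣ}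

/-- A matrix over the ground field as a matrix over the quaternions. -/
def sm (a b : Fˣ) (H : Matrix (Fin 3) (Fin 3) F) : Matrix (Fin 3) (Fin 3) (Qt a b) :=
  Matrix.of fun i j => ⟨H i j, 0, 0, 0⟩

theorem sm_apply (H : Matrix (Fin 3) (Fin 3) F) (i j : Fin 3) :
    sm a b H i j = ⟨H i j, 0, 0, 0⟩ := rfl

theorem sc_mul (t : F) (x : Qt a b) : (⟨t, 0, 0, 0⟩ : Qt a b) * x = t • x := by
  ext <;> simp

theorem mul_sc (t : F) (x : Qt a b) : x * (⟨t, 0, 0, 0⟩ : Qt a b) = t • x := by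
  ext <;> simp [mul_comm]

theorem sm_mul_apply (H : Matrix (Fin 3) (Fin 3) F) (A : Matrix (Fin 3) (Fin 3) (Qt a b))
    (i j : Fin 3) : (sm a b H * A) i j = H i 0 • A 0 j + H i 1 • A 1 j + H i 2 • A 2 j := by
  rw [Matrix.mul_apply, Fin.sum_univ_three, sm_apply, sm_apply, sm_apply, sc_mul, sc_mul, sc_mul]

theorem mul_sm_apply (H : Matrix (Fin 3) (Fin 3) F) (A : Matrix (Fin 3) (Fin 3) (Qt a b))
    (i j : Fin 3) : (A * sm a b H) i j = H 0 j • A i 0 + H 1 j • A i 1 + H 2 j • A i 2 := by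
  rw [Matrix.mul_apply, Fin.sum_univ_three, sm_apply, sm_apply, sm_apply, mul_sc, mul_sc, mul_sc]

theorem smH (H : Matrix (Fin 3) (Fin 3) F) : (sm a b H)ᴴ = sm a b Hᵀ := by
  apply Matrix.ext
  intro i j
  rw [conjTranspose_apply, sm_apply, sm_apply, transpose_apply]
  ext <;> simp

theorem sm_mul (H H' : Matrix (Fin 3) (Fin 3) F) : sm a b (H * H') = sm a b H * sm a b H' := by
  apply Matrix.ext
  intro i j
  rw [sm_mul_apply, sm_apply, sm_apply, sm_apply, sm_apply, Matrix.mul_apply, Fin.sum_univ_three]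
  ext <;> simp

theorem sm_one : sm a b (1 : Matrix (Fin 3) (Fin 3) F) = 1 := by
  apply Matrix.ext
  intro i j
  fin_cases i <;> fin_cases j <;> rfl

/-- An invertible matrix over the ground field. -/
noncomputable def smU (a b : Fˣ) (H : Matrix (Fin 3) (Fin 3) F) (hH : H.det ≠ 0) :
    (Matrix (Fin 3) (Fin 3) (Qt a b))ˣ where
  val := sm a b H
  inv := sm a b H⁻¹
  val_inv := by rw [← sm_mul, Matrix.mul_nonsing_inv _ (isUnit_iff_ne_zero.mpr hH), sm_one]
  inv_val := by rw [← sm_mul, Matrix.nonsing_inv_mul _ (isUnit_iff_ne_zero.mpr hH), sm_one]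

theorem bil_one_re (x : Oct a b c) : bil x 1 = 2 * x.fst.re := by
  simp [bil_eq]

theorem vec_cj (H : Matrix (Fin 3) (Fin 3) F) (hH : H.det ≠ 0) (x : Alb a b c) (i : Fin 3) :
    (⟨H.det, 0, 0, 0⟩ : Qt a b) * vecMul (Alb.vec x)
      (((smU a b H hH)⁻¹ : (Matrix (Fin 3) (Fin 3) (Qt a b))ˣ) :
        Matrix (Fin 3) (Fin 3) (Qt a b)) i =
      H.adjugate 0 i • x.x1.snd + H.adjugate 1 i • x.x2.snd + H.adjugate 2 i • x.x3.snd := by
  have e : (((smU a b H hH)⁻¹ : (Matrix (Fin 3) (Fin 3) (Qt a b))ˣ) :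
      Matrix (Fin 3) (Fin 3) (Qt a b)) = sm a b H⁻¹ := rfl
  have h : ∀ l, H.det * H⁻¹ l i = H.adjugate l i := fun l => by
    rw [Matrix.inv_def, Matrix.smul_apply, Ring.inverse_eq_inv', smul_eq_mul,
      mul_inv_cancel_left₀ hH]
  have e2 : vecMul (Alb.vec x) (sm a b H⁻¹) i =
      H⁻¹ 0 i • x.x1.snd + H⁻¹ 1 i • x.x2.snd + H⁻¹ 2 i • x.x3.snd := by
    rw [vecMul, dotProduct, Fin.sum_univ_three, sm_apply, sm_apply, sm_apply, mul_sc, mul_sc,
      mul_sc]
    rfl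
  rw [e, e2, sc_mul, smul_add, smul_add, smul_smul, smul_smul, smul_smul, h, h, h]

theorem mat_cj (H : Matrix (Fin 3) (Fin 3) F) (x : Alb a b c) (i j : Fin 3) :
    (sm a b H * Alb.mat x * (sm a b H)ᴴ) i j =
      H j 0 • (H i 0 • Alb.mat x 0 0 + H i 1 • Alb.mat x 1 0 + H i 2 • Alb.mat x 2 0) +
      H j 1 • (H i 0 • Alb.mat x 0 1 + H i 1 • Alb.mat x 1 1 + H i 2 • Alb.mat x 2 1) +
      H j 2 • (H i 0 • Alb.mat x 0 2 + H i 1 • Alb.mat x 1 2 + H i 2 • Alb.mat x 2 2) := by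
  rw [smH, mul_sm_apply, sm_mul_apply, sm_mul_apply, sm_mul_apply]
  rfl

theorem dia_eq (H : Matrix (Fin 3) (Fin 3) F) (x : Alb a b c) (i : Fin 3) :
    dia (H i) x = ((sm a b H * Alb.mat x * (sm a b H)ᴴ) i i).re := by
  rw [mat_cj]
  simp [dia, bil_one_re, Alb.mat]
  ring

theorem ent_eq (H : Matrix (Fin 3) (Fin 3) F) (x : Alb a b c) (i j : Fin 3) :
    (ent (H i) (H j) x).fst = (sm a b H * Alb.mat x * (sm a b H)ᴴ) i j := by
  rw [mat_cj]
  apply QuaternionAlgebra.ext <;> simp [ent, Alb.mat] <;> ring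

theorem cj_eq_act (H : Matrix (Fin 3) (Fin 3) F) (hH : H.det ≠ 0) (x : Alb a b c) :
    cj H x = act (smU a b H hH) ⟨H.det, 0, 0, 0⟩ x := by
  unfold act
  apply Alb.ext
  · exact dia_eq H x 0
  · exact dia_eq H x 1
  · exact dia_eq H x 2
  · apply Oct.ext
    · exact ent_eq H x 1 2
    · refine Eq.trans ?_ (vec_cj H hH x 0).symm
      simp only [E6I.cj, ent, adjugate_fin_three]
      apply QuaternionAlgebra.ext <;> simp <;> ring
  · apply Oct.ext
    · exact ent_eq H x 2 0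
    · refine Eq.trans ?_ (vec_cj H hH x 1).symm
      simp only [E6I.cj, ent, adjugate_fin_three]
      apply QuaternionAlgebra.ext <;> simp <;> ring
  · apply Oct.ext
    · exact ent_eq H x 0 1
    · refine Eq.trans ?_ (vec_cj H hH x 2).symm
      simp only [E6I.cj, ent, adjugate_fin_three]
      apply QuaternionAlgebra.ext <;> simp <;> ring

end hmat

end Vale.Agent.P011.E6W.H7
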