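import Vale.Agent.P011.E6I.H637.Conj
import Vale.Agent.P011.E6I.FxPsi
import Vale.Agent.P011.E6W.H183.KRho

/-!
Block E6W (S1): the frame is conjugate to a cubic field of the algebra of degree three.
-/

open NumberField Matrix Polynomial

namespace Vale.Agent.P011.E6W.H7

open Vale.Agent.P011.MPQ hiding mat
open Vale.Agent.P011.D4 Vale.Agent.P011.D4.Oct Vale.Agent.P011.E6
open Vale.Agent.P011.E6I

section mp

theorem Mp_cube {F : Type} [Field F] (p0 p1 p2 : F) : Mp p0 p1 p2 ^ 3 =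
    (-p2) • Mp p0 p1 p2 ^ 2 + (-p1) • Mp p0 p1 p2 + (-p0) • 1 := by
  have h : ∀ M : Matrix (Fin 3) (Fin 3) F, M ^ 3 = M * M * M := fun M => by
    rw [pow_succ, pow_two]
  rw [h, pow_two]
  ext i j
  fin_cases i <;> fin_cases j <;>
    simp [Mp, Matrix.mul_apply, Fin.sum_univ_three] <;> ring

end mp

section gen

variable {k L : Type} [Field k] [NumberField k] [Field L] [NumberField L] [Algebra k L]
  {ρ : L ≃ₐ[k] L} {lam : kˣ} {a b c : kˣ}

omit [NumberField L] in
/-- The element `w'` is conjugate to `w`. -/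
theorem exists_y {w' : MQ L a b} (hw' : InD ρ lam w') {u : kˣ}
    {w : Qt a b} (hw : w.re = 0) (hww : w * w = (u : k) • (1 : Qt a b))
    (hww' : w' * w' = (u : k) • (1 : MQ L a b)) :
    ∃ y ∈ dq ρ lam a b, y ≠ 0 ∧ w' * y = y * sc L w := by
  have hsc : sc L w * sc L w = (u : k) • (1 : MQ L a b) := by
    have h1 := sc_sq (L := L) hw
    have h2 : -nrd w = (u : k) := by
      have h3 := sq_pure hw
      rw [hww] at h3
      have h4 := congrArg QuaternionAlgebra.re h3
      simpa using h4.symm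
    rwa [h2] at h1
  have key : ∀ x : MQ L a b, w' * (w' * x + x * sc L w) = (w' * x + x * sc L w) * sc L w := by
    intro x
    rw [mul_add, add_mul, ← mul_assoc w' w', hww', mul_assoc x, hsc, mul_smul_comm, mul_one,
      smul_mul_assoc, one_mul, ← mul_assoc, add_comm]
  by_cases h1 : w' + sc L w = 0
  · have h2 : w' = -sc L w := eq_neg_of_add_eq_zero_left h1
    have hex : ∃ q : Qt a b, q * w ≠ w * q := by
      by_contra hcon
      push Not at hcon
      have e1 := hcon ⟨0, 1, 0, 0⟩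
      have e2 := hcon ⟨0, 0, 1, 0⟩
      have f1 := congrArg QuaternionAlgebra.imJ e1
      have f2 := congrArg QuaternionAlgebra.imK e1
      have f3 := congrArg QuaternionAlgebra.imK e2
      simp only [QuaternionAlgebra.imJ_mul, QuaternionAlgebra.imK_mul,
        zero_mul, mul_zero, one_mul, mul_one, zero_add, add_zero, sub_zero, zero_sub] at f1 f2 f3
      have h2k : (2 : k) ≠ 0 := two_ne_zero
      have g1 : w.imJ = 0 := by
        have : (2 : k) * w.imJ = 0 := by linear_combination f2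
        exact (mul_eq_zero.mp this).resolve_left h2k
      have g2 : w.imK = 0 := by
        have : (2 * (a : k)) * w.imK = 0 := by linear_combination f1
        exact (mul_eq_zero.mp this).resolve_left (mul_ne_zero h2k a.ne_zero)
      have g3 : w.imI = 0 := by
        have : (2 : k) * w.imI = 0 := by linear_combination -f3
        exact (mul_eq_zero.mp this).resolve_left h2k
      have h0 : w = 0 := QuaternionAlgebra.ext hw g3 g1 g2
      rw [h0, mul_zero] at hww
      have h4 := congrArg QuaternionAlgebra.re hww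
      simp at h4
      exact u.ne_zero h4.symm
    obtain ⟨q, hq⟩ := hex
    refine ⟨w' * sc L q + sc L q * sc L w, ?_, ?_, key _⟩
    · exact (dq ρ lam a b).add_mem ((dq ρ lam a b).mul_mem hw' (sc_mem q))
        ((dq ρ lam a b).mul_mem (sc_mem q) (sc_mem w))
    · intro h3
      rw [h2, neg_mul, neg_add_eq_zero, ← sc_mul, ← sc_mul] at h3
      apply hq
      have h4 := congrFun (congrFun h3 0) 0
      rw [sc, sc, Matrix.diagonal_apply_eq, Matrix.diagonal_apply_eq] at h4
      have hi := (algebraMap k L).injective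
      exact QuaternionAlgebra.ext (hi (congrArg QuaternionAlgebra.re h4)).symm
        (hi (congrArg QuaternionAlgebra.imI h4)).symm
        (hi (congrArg QuaternionAlgebra.imJ h4)).symm
        (hi (congrArg QuaternionAlgebra.imK h4)).symm
  · refine ⟨w' * 1 + 1 * sc L w, ?_, ?_, key 1⟩
    · exact (dq ρ lam a b).add_mem ((dq ρ lam a b).mul_mem hw' (dq ρ lam a b).one_mem)
        ((dq ρ lam a b).mul_mem (dq ρ lam a b).one_mem (sc_mem w))
    · rwa [mul_one, one_mul]

omit [NumberField k] [NumberField L] in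
theorem toMQ_smul (t : L) (x : Matrix (Fin 3) (Fin 3) L) :
    (toMQ (t • x) : MQ L a b) = t • toMQ x := by
  apply Matrix.ext
  intro i j
  exact QuaternionAlgebra.ext rfl (mul_zero t).symm (mul_zero t).symm (mul_zero t).symm

/-- **The frame in the algebra of degree three**, over the ground field. -/
theorem exists_mP_I (H : Hyp ρ lam a b c) {z w' : MQ L a b} (hz : InD ρ lam z)
    (hw' : InD ρ lam w') (hzw : z * w' = w' * z) {p2 p1 p0 : k}
    (hp : z ^ 3 = algebraMap k L p2 • z ^ 2 + algebraMap k L p1 • z +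
      algebraMap k L p0 • (1 : MQ L a b))
    (hind : ∀ t0 t1 t2 : L, t0 • (1 : MQ L a b) + t1 • z + t2 • z ^ 2 = 0 →
      t0 = 0 ∧ t1 = 0 ∧ t2 = 0) {u : kˣ} {w : Qt a b} (hw : w.re = 0)
    (hww : w * w = (u : k) • (1 : Qt a b)) (hww' : w' * w' = (u : k) • (1 : MQ L a b)) :
    ∃ (m : (MQ L a b)ˣ) (z1 P : Matrix (Fin 3) (Fin 3) L), InD ρ lam (m : MQ L a b) ∧
      (m : MQ L a b) * w' = sc L w * m ∧ InD0 ρ lam z1 ∧ (∀ t : L, z1 ≠ t • 1) ∧
      (m : MQ L a b) * z = toMQ z1 * (m : MQ L a b) ∧ P.det ≠ 0 ∧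
      z1 * P = P * Mp (algebraMap k L (-p0)) (algebraMap k L (-p1)) (algebraMap k L (-p2)) ∧
      Irreducible (X ^ 3 + C (-p2) * X ^ 2 + C (-p1) * X + C (-p0) : k[X]) := by
  obtain ⟨y, hy, hy0, hyw⟩ := exists_y hw' hw hww hww'
  obtain ⟨y, rfl⟩ := isUnit_of_inD H hy hy0
  have hyi : InD ρ lam ((y⁻¹ : (MQ L a b)ˣ) : MQ L a b) := InD.inv H hy
  obtain ⟨z', hz'⟩ : ∃ z', z' = ((y⁻¹ : (MQ L a b)ˣ) : MQ L a b) * z * y := ⟨_, rfl⟩
  have hyz : (y : MQ L a b) * z' = z * y := by
    rw [hz', ← mul_assoc, ← mul_assoc, Units.mul_inv, one_mul]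
  have hz'D : InD ρ lam z' := by
    rw [hz']
    exact (dq ρ lam a b).mul_mem ((dq ρ lam a b).mul_mem hyi hz) hy
  have hyw' : ((y⁻¹ : (MQ L a b)ˣ) : MQ L a b) * w' =
      sc L w * ((y⁻¹ : (MQ L a b)ˣ) : MQ L a b) := by
    rw [← Units.mul_left_inj y, mul_assoc, mul_assoc, Units.inv_mul, mul_one, hyw, ← mul_assoc,
      Units.inv_mul, one_mul]
  have hcomm : z' * sc L w = sc L w * z' := by
    rw [hz', mul_assoc, ← hyw, ← mul_assoc, mul_assoc _ z w', hzw, ← mul_assoc, hyw']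
    simp only [mul_assoc]
  have hpow : ∀ n : ℕ, (y : MQ L a b) * z' ^ n = z ^ n * y := by
    intro n
    induction n with
    | zero => rw [pow_zero, pow_zero, mul_one, one_mul]
    | succ n ih => rw [pow_succ, pow_succ, ← mul_assoc, ih, mul_assoc, hyz, mul_assoc]
  have hcancel : ∀ A B : MQ L a b, (y : MQ L a b) * A = y * B → A = B := fun A B h =>
    (Units.mul_right_inj y).1 h
  have hp' : z' ^ 3 = algebraMap k L p2 • z' ^ 2 + algebraMap k L p1 • z' +
      algebraMap k L p0 • (1 : MQ L a b) := by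
    apply hcancel
    rw [hpow, hp, mul_add, mul_add, mul_smul_comm, mul_smul_comm, mul_smul_comm, hpow, hyz,
      mul_one, add_mul, add_mul, smul_mul_assoc, smul_mul_assoc, smul_mul_assoc, one_mul]
  have hind' : ∀ t0 t1 t2 : L, t0 • (1 : MQ L a b) + t1 • z' + t2 • z' ^ 2 = 0 →
      t0 = 0 ∧ t1 = 0 ∧ t2 = 0 := by
    intro t0 t1 t2 h
    apply hind
    rw [← Units.mul_left_inj y, add_mul, add_mul, smul_mul_assoc, smul_mul_assoc, smul_mul_assoc,
      one_mul, ← hyz, ← hpow, zero_mul, ← mul_smul_comm, ← mul_smul_comm]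
    have h1 := congrArg (fun A => (y : MQ L a b) * A) h
    simp only [mul_add, mul_smul_comm, mul_one, mul_zero] at h1 ⊢
    exact h1
  have h2 : ∀ q1 q0 : k, z' ^ 2 ≠ algebraMap k L q1 • z' + algebraMap k L q0 • 1 := by
    intro q1 q0 h
    have h3 := hind' (-algebraMap k L q0) (-algebraMap k L q1) 1 (by
      rw [h]
      module)
    exact one_ne_zero h3.2.2
  obtain ⟨m', z1, hm', hm'w, hz1, hz1k, hm'z⟩ := exists_conj_D H hz'D hp' h2 w hcomm
  obtain ⟨p0', p1', p2', P, hirr, hP, hzP⟩ := Fx.exists_P H hz1 hz1k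
  have hmz : ((m' * y⁻¹ : (MQ L a b)ˣ) : MQ L a b) * z =
      toMQ z1 * ((m' * y⁻¹ : (MQ L a b)ˣ) : MQ L a b) := by
    rw [Units.val_mul, mul_assoc]
    have e : ((y⁻¹ : (MQ L a b)ˣ) : MQ L a b) * z = z' * ((y⁻¹ : (MQ L a b)ˣ) : MQ L a b) := by
      rw [hz', mul_assoc _ (y : MQ L a b), Units.mul_inv, mul_one]
    rw [e, ← mul_assoc, hm'z, mul_assoc]
  -- the coefficients
  have hz13 : z1 ^ 3 = algebraMap k L (-p2') • z1 ^ 2 + algebraMap k L (-p1') • z1 +
      algebraMap k L (-p0') • 1 := by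
    have hu : IsUnit P.det := isUnit_iff_ne_zero.mpr hP
    have e : z1 = P * Mp (algebraMap k L p0') (algebraMap k L p1') (algebraMap k L p2') * P⁻¹ := by
      rw [← hzP, Matrix.mul_assoc, Matrix.mul_nonsing_inv _ hu, Matrix.mul_one]
    have e2 : ∀ M N : Matrix (Fin 3) (Fin 3) L, P * M * P⁻¹ * (P * N * P⁻¹) = P * (M * N) * P⁻¹ :=
      fun M N => by
        calc P * M * P⁻¹ * (P * N * P⁻¹) = P * M * (P⁻¹ * P) * N * P⁻¹ := by
              simp only [Matrix.mul_assoc]
          _ = _ := by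
              rw [Matrix.nonsing_inv_mul _ hu, Matrix.mul_one]
              simp only [Matrix.mul_assoc]
    have e3 : z1 ^ 2 = P * Mp (algebraMap k L p0') (algebraMap k L p1') (algebraMap k L p2') ^ 2 *
        P⁻¹ := by
      rw [e, pow_two, e2, ← pow_two]
    have e4 : z1 ^ 3 = P * Mp (algebraMap k L p0') (algebraMap k L p1') (algebraMap k L p2') ^ 3 *
        P⁻¹ := by
      rw [pow_succ, e3, e, e2, ← pow_succ]
    rw [e4, Mp_cube, e3]
    conv_rhs => rw [e]
    simp only [Matrix.mul_add, Matrix.add_mul, Matrix.mul_smul, Matrix.smul_mul, Matrix.mul_one,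
      Matrix.mul_nonsing_inv _ hu, map_neg]
  have hz3 : z ^ 3 = algebraMap k L (-p2') • z ^ 2 + algebraMap k L (-p1') • z +
      algebraMap k L (-p0') • (1 : MQ L a b) := by
    have hpm : ∀ n : ℕ, ((m' * y⁻¹ : (MQ L a b)ˣ) : MQ L a b) * z ^ n =
        toMQ (z1 ^ n) * ((m' * y⁻¹ : (MQ L a b)ˣ) : MQ L a b) := by
      intro n
      induction n with
      | zero => rw [pow_zero, pow_zero, mul_one, toMQ_one, one_mul]
      | succ n ih => rw [pow_succ, pow_succ, ← mul_assoc, ih, mul_assoc, hmz, ← mul_assoc, toMQ_mul]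
    rw [← Units.mul_right_inj (m' * y⁻¹), hpm, hz13, toMQ_add, toMQ_add, toMQ_smul, toMQ_smul,
      toMQ_smul, toMQ_one, mul_add, mul_add, mul_smul_comm, mul_smul_comm, mul_smul_comm, hpm, hmz,
      mul_one, add_mul, add_mul, smul_mul_assoc, smul_mul_assoc, smul_mul_assoc, one_mul]
  have hz0 := hind (algebraMap k L (p0 + p0')) (algebraMap k L (p1 + p1'))
    (algebraMap k L (p2 + p2')) (by
      rw [hz3] at hp
      simp only [map_neg, map_add] at hp ⊢
      linear_combination (norm := module) -hp)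
  have g0 : p0' = -p0 := eq_neg_of_add_eq_zero_right ((map_eq_zero _).1 hz0.1)
  have g1 : p1' = -p1 := eq_neg_of_add_eq_zero_right ((map_eq_zero _).1 hz0.2.1)
  have g2 : p2' = -p2 := eq_neg_of_add_eq_zero_right ((map_eq_zero _).1 hz0.2.2)
  subst g0 g1 g2
  refine ⟨m' * y⁻¹, z1, P, ?_, ?_, hz1, hz1k, hmz, hP, hzP, hirr⟩
  · exact (dq ρ lam a b).mul_mem hm' hyi
  · rw [Units.val_mul, mul_assoc, hyw', ← mul_assoc, hm'w, mul_assoc]

end gen

section main

open Vale.Agent.P011.E6O (KK fixR)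
open Vale.Agent.P011.E6W.H183

variable {k E : Type} [Field k] [NumberField k] [Field E] [NumberField E] [Algebra k E]
  {ρ σ : E ≃ₐ[k] E} {lam : Eˣ} {g : Fin 3 → Eˣ} {th s : E} {kap a b c : kˣ}

/-- **(S1)** The frame is conjugate to a cubic field of the algebra of degree three. -/
theorem exists_mP (W : WH ρ σ lam g th s kap a b c) {z w' : MQ E a b} (hz : E6O.InD ρ lam z)
    (hw' : E6O.InD ρ lam w') (hzw : z * w' = w' * z) {p2 p1 p0 : k}
    (hp : z ^ 3 = algebraMap k E p2 • z ^ 2 + algebraMap k E p1 • z +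
      algebraMap k E p0 • (1 : MQ E a b))
    (hind : ∀ t0 t1 t2 : E, t0 • (1 : MQ E a b) + t1 • z + t2 • z ^ 2 = 0 →
      t0 = 0 ∧ t1 = 0 ∧ t2 = 0) {u : kˣ} {w : Qt a b} (hw : w.re = 0)
    (hww : w * w = (u : k) • (1 : Qt a b))
    (hww' : w' * w' = algebraMap k E (u : k) • (1 : MQ E a b)) :
    ∃ (m : (MQ E a b)ˣ) (z1 P : Matrix (Fin 3) (Fin 3) E), E6O.InD ρ lam (m : MQ E a b) ∧
      (m : MQ E a b) * w' = E6I.sc E w * (m : MQ E a b) ∧ E6O.InD0 ρ lam z1 ∧
      (∀ t : E, z1 ≠ t • 1) ∧ (m : MQ E a b) * z = toMQ z1 * (m : MQ E a b) ∧ P.det ≠ 0 ∧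
      z1 * P = P * Fx.MpL E (-p0) (-p1) (-p2) ∧
      Irreducible (X ^ 3 + C (-p2) * X ^ 2 + C (-p1) * X + C (-p0) : k[X]) := by
  have hwK : qup (KK ρ) w * qup (KK ρ) w = ((up (KK ρ) u : (KK ρ)ˣ) : KK ρ) •
      (1 : Qt (up (KK ρ) a) (up (KK ρ) b)) := by
    rw [← qup_mul, hww, qup_smul, qup_one]
    rfl
  obtain ⟨m, z1, P, h1, h2, h3, h4, h5, h6, h7, h8⟩ := exists_mP_I (k := KK ρ) (L := E) W.HI
    (z := z) (w' := w') hz hw' hzw (p2 := algebraMap k (KK ρ) p2) (p1 := algebraMap k (KK ρ) p1)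
    (p0 := algebraMap k (KK ρ) p0) hp hind (u := up (KK ρ) u) (w := qup (KK ρ) w)
    (by rw [qup]; change algebraMap k (KK ρ) w.re = 0; rw [hw, map_zero]) hwK
    (hww'.trans (ksmul_eq (k := KK ρ) (L := E) (a := up (KK ρ) a) (b := up (KK ρ) b)
      ((up (KK ρ) u : (KK ρ)ˣ) : KK ρ) 1).symm)
  refine ⟨m, z1, P, h1, h2, h3, h4, h5, h6, ?_, ?_⟩
  · refine h7.trans ?_
    have e : ∀ x : k, algebraMap (KK ρ) E (-algebraMap k (KK ρ) x) = algebraMap k E (-x) :=
      fun x => by
        rw [map_neg, map_neg]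
        rfl
    rw [e, e, e]
  · have hmon : (X ^ 3 + C (-p2) * X ^ 2 + C (-p1) * X + C (-p0) : k[X]).Monic := by
      monicity!
    refine hmon.irreducible_of_irreducible_map (algebraMap k (KK ρ)) _ ?_
    have e : (X ^ 3 + C (-p2) * X ^ 2 + C (-p1) * X + C (-p0) : k[X]).map (algebraMap k (KK ρ)) =
        X ^ 3 + C (-algebraMap k (KK ρ) p2) * X ^ 2 + C (-algebraMap k (KK ρ) p1) * X +
          C (-algebraMap k (KK ρ) p0) := by
      simp only [Polynomial.map_add, Polynomial.map_mul, Polynomial.map_pow, Polynomial.map_X,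
        map_neg, Polynomial.map_neg, Polynomial.map_C]
    rw [e]
    exact h8

end main

end Vale.Agent.P011.E6W.H7
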