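import Vale.Agent.P011.D4.Emb
import Vale.Agent.P011.D4.Homs
import Vale.Agent.P011.D4I.Defs

/-!
Block E6W: extension of scalars from the fixed field of an automorphism, for linear maps of the
octonion algebras.
-/

namespace Vale.Agent.P011.E6W.H7

open Vale.Agent.P011.MPQ Vale.Agent.P011.D4 Vale.Agent.P011.D4.Oct Vale.Agent.P011.D4.Em

variable {k F Y : Type} [Field k] [Field F] [Field Y] [Algebra k F] [Algebra k Y] [Algebra F Y]
  {a b c : kˣ}

/-- An octonion over `F`, as an octonion over `Y`. -/
def oY (Y : Type) [Field Y] [Algebra k Y] [Algebra F Y] (x : OctL F a b c) : OctL Y a b c :=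
  ⟨qEM Y x.fst, qEM Y x.snd⟩

theorem oc_oY (x : OctL F a b c) (m : Fin 8) : oc (oY Y x) m = algebraMap F Y (oc x m) := by
  fin_cases m <;> rfl

theorem oc_ext {G : Type} [Field G] {a b c : Gˣ} {x y : Oct a b c} (h : ∀ m, oc x m = oc y m) :
    x = y := by
  rw [← sum_oc x, ← sum_oc y]
  exact Finset.sum_congr rfl fun m _ => by rw [h]

theorem oY_injective : Function.Injective (oY Y : OctL F a b c → OctL Y a b c) := by
  intro x y h
  refine oc_ext fun m => (algebraMap F Y).injective ?_
  rw [← oc_oY, ← oc_oY, h]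

theorem oY_add (x y : OctL F a b c) : oY Y (x + y) = oY Y x + oY Y y :=
  oc_ext fun m => by rw [oc_oY, oc_add, oc_add, oc_oY, oc_oY, map_add]

theorem oY_zero : oY Y (0 : OctL F a b c) = 0 := by
  have h := oY_add (Y := Y) (0 : OctL F a b c) 0
  rw [add_zero] at h
  exact left_eq_add.1 h

theorem oY_smul (t : F) (x : OctL F a b c) : oY Y (t • x) = algebraMap F Y t • oY Y x :=
  oc_ext fun m => by rw [oc_oY, oc_smul, oc_smul, oc_oY, map_mul]

theorem oY_ob (m : Fin 8) : oY Y (ob m : OctL F a b c) = ob m := by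
  refine oc_ext fun n => ?_
  rw [oc_oY]
  fin_cases m <;> fin_cases n <;> simp [oc, ob]

theorem oY_sum {ι : Type} (s : Finset ι) (f : ι → OctL F a b c) :
    oY Y (∑ m ∈ s, f m) = ∑ m ∈ s, oY Y (f m) := by
  classical
  induction s using Finset.induction_on with
  | empty => simp [oY_zero]
  | insert m s hm ih => rw [Finset.sum_insert hm, Finset.sum_insert hm, oY_add, ih]

/-- Induction along the extension of scalars. -/
theorem oY_induction {p : OctL Y a b c → Prop} (h0 : ∀ x : OctL F a b c, p (oY Y x))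
    (hadd : ∀ x y, p x → p y → p (x + y)) (hsmul : ∀ (t : Y) x, p x → p (t • x))
    (x : OctL Y a b c) : p x := by
  rw [← sum_oc x]
  refine Finset.sum_induction _ p hadd ?_ fun m _ => ?_
  · rw [← oY_zero (F := F)]
    exact h0 0
  · rw [← oY_ob (F := F)]
    exact hsmul _ _ (h0 _)

theorem qEM_neg' (x : Qt (up F a) (up F b)) : qEM Y (-x) = -qEM Y x := by
  have h : qEM Y (-x) + qEM Y x = 0 := by
    rw [← qEM_add, neg_add_cancel]
    ext <;> simp
  exact eq_neg_of_add_eq_zero_left h

section mul

variable [IsScalarTower k F Y]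

theorem val_up_up (u : kˣ) : algebraMap F Y ((up F u : Fˣ) : F) = ((up Y u : Yˣ) : Y) := by
  change algebraMap F Y (algebraMap k F u) = algebraMap k Y u
  rw [← IsScalarTower.algebraMap_apply]

theorem oY_mul (x y : OctL F a b c) : oY Y (x * y) = oY Y x * oY Y y := by
  apply Oct.ext
  · change qEM Y (x.fst * y.fst + ((up F c : Fˣ) : F) • (star y.snd * x.snd)) =
      qEM Y x.fst * qEM Y y.fst + ((up Y c : Yˣ) : Y) • (star (qEM Y y.snd) * qEM Y x.snd)
    rw [qEM_add, qEM_smul, qEM_mul, qEM_mul, qEM_star, val_up_up]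
  · change qEM Y (y.snd * x.fst + x.snd * star y.fst) =
      qEM Y y.snd * qEM Y x.fst + qEM Y x.snd * star (qEM Y y.fst)
    rw [qEM_add, qEM_mul, qEM_mul, qEM_star]

end mul

theorem oY_star (x : OctL F a b c) : oY Y (star x) = star (oY Y x) := by
  apply Oct.ext
  · exact qEM_star _
  · exact qEM_neg' _

/-- Compatibility with automorphisms. -/
theorem oY_omap {f : F ≃ₐ[k] F} {g : Y ≃ₐ[k] Y}
    (h : ∀ t : F, g (algebraMap F Y t) = algebraMap F Y (f t)) (x : OctL F a b c) :
    omap g (oY Y x) = oY Y (omap f x) := by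
  refine oc_ext fun m => ?_
  rw [oc_omap, oc_oY, oc_oY, oc_omap, h]

theorem qEM_qmap {f : F ≃ₐ[k] F} {g : Y ≃ₐ[k] Y}
    (h : ∀ t : F, g (algebraMap F Y t) = algebraMap F Y (f t)) (x : Qt (up F a) (up F b)) :
    qmap g (qEM Y x) = qEM Y (qmap f x) := by
  ext <;> simp [h]

/-- The automorphism fixes the octonions over `F`. -/
theorem omap_oY_fix {g : Y ≃ₐ[k] Y} (h : ∀ t : F, g (algebraMap F Y t) = algebraMap F Y t)
    (x : OctL F a b c) : omap g (oY Y x) = oY Y x := by
  refine oc_ext fun m => ?_
  rw [oc_omap, oc_oY, h]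

/-- An octonion fixed by the automorphism comes from the fixed field. -/
theorem exists_oY {g : Y ≃ₐ[k] Y} (h : ∀ y : Y, g y = y → ∃ t : F, algebraMap F Y t = y)
    {x : OctL Y a b c} (hx : omap g x = x) : ∃ y : OctL F a b c, oY Y y = x := by
  have h1 : ∀ m, ∃ t : F, algebraMap F Y t = oc x m := fun m => h _ (by rw [← oc_omap, hx])
  choose t ht using h1
  refine ⟨∑ m, t m • ob m, ?_⟩
  rw [oY_sum]
  conv_rhs => rw [← sum_oc x]
  exact Finset.sum_congr rfl fun m _ => by rw [oY_smul, oY_ob, ht]

/-! Extension of linear maps. -/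

/-- The extension of scalars of a linear map. -/
def exY (Y : Type) [Field Y] [Algebra k Y] [Algebra F Y]
    (f : OctL F a b c →ₗ[F] OctL F a b c) : OctL Y a b c →ₗ[Y] OctL Y a b c where
  toFun x := ∑ m, oc x m • oY Y (f (ob m))
  map_add' x y := by
    rw [← Finset.sum_add_distrib]
    exact Finset.sum_congr rfl fun m _ => by rw [oc_add, add_smul]
  map_smul' t x := by
    rw [RingHom.id_apply, Finset.smul_sum]
    exact Finset.sum_congr rfl fun m _ => by rw [oc_smul, mul_smul]

theorem exY_apply (f : OctL F a b c →ₗ[F] OctL F a b c) (x : OctL Y a b c) :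
    exY Y f x = ∑ m, oc x m • oY Y (f (ob m)) := rfl

theorem exY_oY (f : OctL F a b c →ₗ[F] OctL F a b c) (x : OctL F a b c) :
    exY Y f (oY Y x) = oY Y (f x) := by
  conv_rhs => rw [← sum_oc x, map_sum, oY_sum]
  rw [exY_apply]
  refine Finset.sum_congr rfl fun m _ => ?_
  rw [oc_oY, map_smul, oY_smul]

theorem lin_unique {f g : OctL Y a b c →ₗ[Y] OctL Y a b c}
    (h : ∀ x : OctL F a b c, f (oY Y x) = g (oY Y x)) : f = g := by
  apply LinearMap.ext
  refine oY_induction (F := F) h (fun x y hx hy => ?_) (fun t x hx => ?_)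
  · rw [map_add, map_add, hx, hy]
  · rw [map_smul, map_smul, hx]

theorem lequiv_unique {f g : OctL Y a b c ≃ₗ[Y] OctL Y a b c}
    (h : ∀ x : OctL F a b c, f (oY Y x) = g (oY Y x)) : f = g :=
  LinearEquiv.toLinearMap_injective (lin_unique h)

/-- The extension of scalars, as a homomorphism. -/
def eY (Y : Type) [Field Y] [Algebra k Y] [Algebra F Y] (a b c : kˣ) :
    (OctL F a b c ≃ₗ[F] OctL F a b c) →* (OctL Y a b c ≃ₗ[Y] OctL Y a b c) where
  toFun f := LinearEquiv.ofLinearMap (exY Y (f : OctL F a b c →ₗ[F] OctL F a b c))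
    (exY Y (f.symm : OctL F a b c →ₗ[F] OctL F a b c))
    (lin_unique fun x => by
      rw [LinearMap.comp_apply, exY_oY, exY_oY, LinearMap.id_apply]
      exact congrArg _ (f.apply_symm_apply x))
    (lin_unique fun x => by
      rw [LinearMap.comp_apply, exY_oY, exY_oY, LinearMap.id_apply]
      exact congrArg _ (f.symm_apply_apply x))
  map_one' := lequiv_unique (F := F) fun x => exY_oY _ x
  map_mul' f g := lequiv_unique (F := F) fun x => by
    change exY Y _ (oY Y x) = exY Y _ (exY Y _ (oY Y x))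
    rw [exY_oY, exY_oY, exY_oY]
    rfl

theorem eY_oY (f : OctL F a b c ≃ₗ[F] OctL F a b c) (x : OctL F a b c) :
    eY Y a b c f (oY Y x) = oY Y (f x) := exY_oY _ x

theorem eY_injective : Function.Injective (eY (F := F) Y a b c) := by
  intro f g h
  refine LinearEquiv.ext fun x => oY_injective (Y := Y) ?_
  rw [← eY_oY, ← eY_oY, h]

/-- The extension commutes with semilinear maps if the original map does. -/
theorem eY_comm {g : Y ≃ₐ[k] Y} {T : OctL F a b c ≃ₗ[F] OctL F a b c}
    {J : OctL Y a b c → OctL Y a b c} {j : OctL F a b c → OctL F a b c}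
    (hadd : ∀ x y, J (x + y) = J x + J y) (hsmul : ∀ (t : Y) x, J (t • x) = g t • J x)
    (hj : ∀ x, J (oY Y x) = oY Y (j x)) :
    (∀ x, eY Y a b c T (J x) = J (eY Y a b c T x)) ↔ ∀ x, T (j x) = j (T x) := by
  constructor
  · intro h x
    apply oY_injective (Y := Y)
    rw [← eY_oY, ← hj, h, eY_oY, hj]
  · intro h
    refine oY_induction (F := F) (fun x => ?_) (fun x y hx hy => ?_) (fun t x hx => ?_)
    · rw [hj, eY_oY, h, eY_oY, hj]
    · rw [hadd, map_add, map_add, hadd, hx, hy]
    · rw [hsmul, map_smul, map_smul, hsmul, hx]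

section tri

variable [IsScalarTower k F Y]

theorem tri_oY {f : F ≃ₐ[k] F} {g : Y ≃ₐ[k] Y}
    (h : ∀ t : F, g (algebraMap F Y t) = algebraMap F Y (f t)) (x y : OctL F a b c) :
    tri g (oY Y x) (oY Y y) = oY Y (tri f x y) := by
  unfold tri
  rw [← oY_star, ← oY_star, oY_omap h, oY_omap h, oY_omap h, oY_mul]

/-- The extension is compatible with the cyclic composition if and only if the original map is. -/
theorem eY_tri {f : F ≃ₐ[k] F} {g : Y ≃ₐ[k] Y}
    (h : ∀ t : F, g (algebraMap F Y t) = algebraMap F Y (f t))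
    {T : OctL F a b c ≃ₗ[F] OctL F a b c} :
    (∀ x y, eY Y a b c T (tri g x y) = tri g (eY Y a b c T x) (eY Y a b c T y)) ↔
      ∀ x y, T (tri f x y) = tri f (T x) (T y) := by
  have hl : ∀ x y z : OctL Y a b c, tri g (x + y) z = tri g x z + tri g y z := fun x y z => by
    unfold tri
    rw [star_add, omap_add, add_mul]
  have hr : ∀ x y z : OctL Y a b c, tri g x (y + z) = tri g x y + tri g x z := fun x y z => by
    unfold tri
    rw [star_add, omap_add, omap_add, mul_add]
  have hsl : ∀ (t : Y) (x y : OctL Y a b c), tri g (t • x) y = g t • tri g x y :=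
    fun t x y => by
      unfold tri
      rw [star_smul_oct, omap_smul, smul_mul_oct]
  have hsr : ∀ (t : Y) (x y : OctL Y a b c), tri g x (t • y) = g (g t) • tri g x y :=
    fun t x y => by
      unfold tri
      rw [star_smul_oct, omap_smul, omap_smul, mul_smul_oct]
  constructor
  · intro H x y
    apply oY_injective (Y := Y)
    rw [← eY_oY, ← tri_oY h, H, eY_oY, eY_oY, tri_oY h]
  · intro H
    refine oY_induction (F := F) (fun x => ?_) (fun x z hx hz => fun y => ?_)
      (fun t x hx => fun y => ?_)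
    · refine oY_induction (F := F) (fun y => ?_) (fun y z hy hz => ?_) (fun t y hy => ?_)
      · rw [tri_oY h, eY_oY, H, eY_oY, eY_oY, tri_oY h]
      · rw [hr, map_add, map_add, hr, hy, hz]
      · rw [hsr, map_smul, map_smul, hsr, hy]
    · rw [hl, map_add, map_add, hl, hx, hz]
    · rw [hsl, map_smul, map_smul, hsl, hx]

end tri

/-- Descent: a linear automorphism which commutes with the Galois action comes from the fixed
field. -/
theorem exists_eY {g : Y ≃ₐ[k] Y} (h1 : ∀ t : F, g (algebraMap F Y t) = algebraMap F Y t)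
    (h2 : ∀ y : Y, g y = y → ∃ t : F, algebraMap F Y t = y)
    (T : OctL Y a b c ≃ₗ[Y] OctL Y a b c) :
    (∀ x, T (omap g x) = omap g (T x)) ↔ ∃ f : OctL F a b c ≃ₗ[F] OctL F a b c,
      eY Y a b c f = T := by
  constructor
  · intro hT
    have hT' : ∀ x, T.symm (omap g x) = omap g (T.symm x) := fun x => by
      rw [LinearEquiv.symm_apply_eq, hT, LinearEquiv.apply_symm_apply]
    have e1 : ∀ x : OctL F a b c, ∃ y : OctL F a b c, oY Y y = T (oY Y x) := fun x =>
      exists_oY h2 (by rw [← hT, omap_oY_fix h1])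
    have e2 : ∀ x : OctL F a b c, ∃ y : OctL F a b c, oY Y y = T.symm (oY Y x) := fun x =>
      exists_oY h2 (by rw [← hT', omap_oY_fix h1])
    choose f hf using e1
    choose f' hf' using e2
    refine ⟨{ toFun := f
              invFun := f'
              map_add' := fun x y => oY_injective (Y := Y) (by
                rw [hf, oY_add, oY_add, map_add, hf, hf])
              map_smul' := fun t x => oY_injective (Y := Y) (by
                rw [hf, oY_smul, RingHom.id_apply, oY_smul, map_smul, hf])
              left_inv := fun x => oY_injective (Y := Y) (by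
                rw [hf', hf, LinearEquiv.symm_apply_apply])
              right_inv := fun x => oY_injective (Y := Y) (by
                rw [hf, hf', LinearEquiv.apply_symm_apply]) }, ?_⟩
    refine lequiv_unique (F := F) fun x => ?_
    rw [eY_oY]
    exact hf x
  · rintro ⟨f, rfl⟩
    refine oY_induction (F := F) (fun x => ?_) (fun x y hx hy => ?_) (fun t x hx => ?_)
    · rw [omap_oY_fix h1, eY_oY, omap_oY_fix h1]
    · rw [omap_add, map_add, map_add, omap_add, hx, hy]
    · rw [omap_smul, map_smul, map_smul, omap_smul, hx]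

/-- Transfer of the absence of proper subgroups of finite index. -/
theorem noIndex_of_range {G₁ G₂ A : Type} [Group G₁] [Group G₂] [Group A] (e₁ : G₁ →* A)
    (e₂ : G₂ →* A) (h1 : Function.Injective e₁) (h : e₁.range = e₂.range)
    (h2 : ∀ N : Subgroup G₂, N.index ≠ 0 → N = ⊤) (N : Subgroup G₁) (hN : N.index ≠ 0) :
    N = ⊤ := by
  let f : G₁ ≃* e₁.range := MonoidHom.ofInjective h1
  let φ : G₂ →* G₁ := (f.symm : e₁.range →* G₁).comp
    ((MulEquiv.subgroupCongr h.symm : e₂.range →* e₁.range).comp e₂.rangeRestrict)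
  have hφ : Function.Surjective φ := by
    refine f.symm.surjective.comp ((MulEquiv.subgroupCongr h.symm).surjective.comp ?_)
    exact e₂.rangeRestrict_surjective
  have h3 : N.comap φ = ⊤ := h2 _ (by rwa [Subgroup.index_comap_of_surjective _ hφ])
  rw [eq_top_iff]
  intro x _
  obtain ⟨y, rfl⟩ := hφ x
  have : y ∈ N.comap φ := by rw [h3]; trivial
  exact this

end Vale.Agent.P011.E6W.H7
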