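import Vale.Agent.P011.E6H.Hyp
import Vale.Agent.P011.E6H.XDefs
import Vale.Agent.P011.E6I.H64.Real

/-!
Block E6W: real embeddings of the sextic field.
-/

open NumberField IntermediateField

namespace Vale.Agent.P011.E6W.H7

open Vale.Agent.P011.E6H (IsSextic)

variable {k E : Type} [Field k] [NumberField k] [Field E] [Algebra k E]
  {ρ σ : E ≃ₐ[k] E} {kap : kˣ}

/-- A real embedding of `k` at which `kap` is positive extends to the sextic field. -/
theorem exists_real_sextic (h : IsSextic ρ σ kap) {φ : k →+* ℝ} (hφ : 0 < φ kap) :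
    ∃ w : E →+* ℝ, w.comp (algebraMap k E) = φ := by
  have hf : FiniteDimensional k E := Module.finite_of_finrank_pos (by rw [h.h6]; norm_num)
  obtain ⟨th, h1, h2, h3⟩ := h.sq
  have hth : th ≠ 0 := by
    rintro rfl
    have e : algebraMap k E kap = 0 := by rw [← h1]; ring
    exact kap.ne_zero ((map_eq_zero _).mp e)
  have h2E : (2 : E) ≠ 0 := by
    have : CharZero E := charZero_of_injective_algebraMap (algebraMap k E).injective
    exact two_ne_zero
  -- the quadratic subfield
  have hint : IsIntegral k th := IsIntegral.of_finite k th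
  have hnk : ∀ x : k, algebraMap k E x ≠ th := by
    intro x hx
    have e : th = -th := by
      conv_lhs => rw [← hx, ← σ.commutes x, hx, h3]
    have e2 : (2 : E) * th = 0 := by linear_combination e
    rcases mul_eq_zero.mp e2 with e3 | e3
    · exact h2E e3
    · exact hth e3
  have hmin : minpoly k th = Polynomial.X ^ 2 - Polynomial.C (kap : k) := by
    symm
    apply minpoly.unique' k th (Polynomial.monic_X_pow_sub_C _ two_ne_zero)
    · simp [h1]
    · intro q hq
      rw [Polynomial.degree_X_pow_sub_C two_pos, Nat.cast_ofNat] at hq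
      by_contra hcon
      push Not at hcon
      obtain ⟨hq0, hq1⟩ := hcon
      have hd : q.degree ≤ 1 := by
        exact Order.le_of_lt_succ hq
      rw [Polynomial.eq_X_add_C_of_degree_le_one hd] at hq1 hq0
      simp only [map_add, map_mul, Polynomial.aeval_C, Polynomial.aeval_X] at hq1
      by_cases hc : q.coeff 1 = 0
      · rw [hc, map_zero, zero_mul, zero_add, map_eq_zero] at hq1
        apply hq0
        rw [hc, hq1]
        simp
      · apply hnk (-(q.coeff 0) / q.coeff 1)
        rw [map_div₀, map_neg, div_eq_iff ((map_ne_zero _).mpr hc)]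
        linear_combination -hq1
  have hdeg : Module.finrank k k⟮th⟯ = 2 := by
    rw [IntermediateField.adjoin.finrank hint, hmin, Polynomial.natDegree_X_pow_sub_C]
  have h3' : Module.finrank k⟮th⟯ E = 3 := by
    have e := Module.finrank_mul_finrank k k⟮th⟯ E
    rw [hdeg, h.h6] at e
    omega
  -- the real embedding of the quadratic subfield
  obtain ⟨w0, hw0⟩ : ∃ w : k⟮th⟯ →+* ℝ, w.comp (algebraMap k k⟮th⟯) = φ := by
    let _ := φ.toAlgebra
    let pb := IntermediateField.adjoin.powerBasis hint
    have hr : Polynomial.aeval (√(φ kap)) (minpoly k pb.gen) = 0 := by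
      have hg : minpoly k pb.gen = minpoly k th := by
        rw [IntermediateField.adjoin.powerBasis_gen, IntermediateField.minpoly_gen]
      rw [hg, hmin]
      simp only [map_sub, map_pow, Polynomial.aeval_X, Polynomial.aeval_C]
      rw [Real.sq_sqrt hφ.le]
      exact sub_self _
    exact ⟨(pb.lift _ hr).toRingHom, (pb.lift _ hr).comp_algebraMap⟩
  obtain ⟨w, hw⟩ := E6I.exists_real_over h3' w0
  refine ⟨w, ?_⟩
  rw [← hw0, ← hw, RingHom.comp_assoc, ← IsScalarTower.algebraMap_eq]

end Vale.Agent.P011.E6W.H7
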