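import Vale.Agent.P011.E6W.H7.GoodQ
import Vale.Agent.P011.E6W.H7.Model
import Vale.Agent.P011.E6W.H7.RealE
import Vale.Agent.P011.E6X.H714.Main

/-!
Block E6W: the case in which the octonion algebra does not remain a division algebra.
-/

open NumberField Matrix IsDedekindDomain

namespace Vale.Agent.P011.E6W.H7

open Vale.Agent.P011.MPQ Vale.Agent.P011.D4 Vale.Agent.P011.D4.Oct Vale.Agent.P011.E6
open Vale.Agent.P011.E6O (GO Res)
open Vale.Agent.P011.E6H (IsSextic IsForm)

variable {k E : Type} [Field k] [NumberField k] [Field E] [NumberField E] [Algebra k E]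
  {ρ σ : E ≃ₐ[k] E} {lam : Eˣ} {g : Fin 3 → Eˣ} {kap a b c : kˣ}

/-- An octonion algebra which is definite at a real place is a division algebra. -/
theorem division_of_dfn {F : Type} [Field F] {a b c : Fˣ} {w : F →+* ℝ} (h : Dfn w a b c) :
    Division a b c := by
  intro x hx
  by_contra h0
  have h1 := h.defAt x h0
  rw [hx, map_zero] at h1
  exact lt_irrefl _ h1

omit [NumberField k] in
/-- The octonion algebra remains a division algebra after a change of coordinates. -/
theorem division_trip' [CharZero k] {a' b' c' : kˣ} {i j l : Oct a b c} (ht : Trip a' b' c' i j l)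
    (h : Division a b c) : Division a' b' c' := by
  intro x hx
  obtain ⟨Φ, -, -, -, hno⟩ := exists_emb ht
  have h1 := h (Φ x) (by rw [hno, hx])
  exact Φ.injective (h1.trans (map_zero _).symm)

omit [NumberField E] in
/-- If the octonion algebra is not a division algebra over the sextic field, the parameter is
negative at the real places at which it is definite. -/
theorem neg_of_not (hS : IsSextic ρ σ kap) (h : ¬ Division (up E a) (up E b) (up E c))
    {φ : k →+* ℝ} (hd : Dfn φ a b c) : φ kap < 0 := by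
  by_contra hcon
  have h1 : 0 < φ kap := lt_of_le_of_ne (not_lt.1 hcon) ((map_ne_zero φ).2 kap.ne_zero).symm
  obtain ⟨w, rfl⟩ := exists_real_sextic hS h1
  exact h (division_of_dfn (w := w) hd)

/-- The elements close to the identity belong to the finite residual, when the octonion algebra
is given by the square root of `kap`. -/
theorem near_kap (hS : IsSextic ρ σ kap) (hC : Division kap b c) (hg : IsForm ρ σ lam g) :
    ∃ t : ℝ, 0 < t ∧ ∀ φ ∈ GO ρ σ lam g kap b c, NearA t φ → φ ∈ Res ρ σ lam g kap b c := by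
  obtain ⟨al, s, H⟩ := E6X.hyp_of hS hg hC
  have hal : al ≠ 0 := by
    rintro rfl
    have e : algebraMap k E kap = 0 := by rw [← H.al2]; ring
    exact kap.ne_zero ((map_eq_zero _).mp e)
  obtain ⟨ε, hε, h1⟩ := E6X.near_res_all H
  obtain ⟨t, ht, h2⟩ := E6X.open_of (N := (Res ρ σ lam g kap b c).subgroupOf (GO ρ σ lam g kap b c))
    hal ⟨ε, hε, fun h hn => Subgroup.mem_subgroupOf.2 (h1 h.1 h.2 hn)⟩
  exact ⟨t, ht, fun φ hφ hn => Subgroup.mem_subgroupOf.1
    (h2 ⟨φ, hφ⟩ fun w _ y => hn w y)⟩

/-- The elements close to the identity belong to the finite residual, when the octonion algebra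
does not remain a division algebra over the sextic field. -/
theorem near_split (hS : IsSextic ρ σ kap) (hC : Division a b c)
    (hE : ¬ Division (up E a) (up E b) (up E c)) (hg : IsForm ρ σ lam g) :
    ∃ t : ℝ, 0 < t ∧ ∀ φ ∈ GO ρ σ lam g a b c, NearA t φ → φ ∈ Res ρ σ lam g a b c := by
  obtain ⟨a', b', c', i, j, l, ht, -, h1, h2⟩ := exists_good_at hC
    (Set.finite_empty (α := HeightOneSpectrum (𝓞 k)))
  refine near_of_model ht ?_
  have hC' : Division a' b' c' := division_trip' ht hC
  have hd : ∀ φ : k →+* ℝ, Dfn φ a' b' c' → Dfn φ a b c := fun φ h => by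
    by_contra hn
    exact absurd h.1 (not_lt.2 (h2 φ hn).le)
  obtain ⟨i', hi, hi1, hi0, hin, -⟩ := exists_pure_sq a' b' c' kap
    (fun φ h => neg_of_not hS hE (hd φ h)) (fun φ h3 _ h5 => by
      have h6 : Dfn φ a b c := by
        by_contra hn
        exact absurd h3 (not_lt.2 (h2 φ hn).le)
      exact absurd (h1 φ h6).2.2 (not_lt.2 h5.le))
  have pure_of : ∀ w : Oct a' b' c', dot w 1 = 0 → star w = -w := by
    intro w hw
    apply star_neg_of_pure
    rw [bil_eq_dot, hw, mul_zero]
  obtain ⟨j0, hj0, hj⟩ := exists_perp ![1, i', 1, 1, 1, 1, 1]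
  obtain ⟨l0, hl0, hl⟩ := exists_perp ![1, i', j0, i' * j0, 1, 1, 1]
  have hj1 : dot j0 1 = 0 := hj 0
  have hji : dot j0 i' = 0 := hj 1
  have hl1 : dot l0 1 = 0 := hl 0
  have hli : dot l0 i' = 0 := hl 1
  have hlj : dot l0 j0 = 0 := hl 2
  have hlij : dot l0 (i' * j0) = 0 := hl 3
  obtain ⟨a1, b1, c1, ht'⟩ := exists_trip hC' hi hi0 (pure_of j0 hj1) hj0 (pure_of l0 hl1) hl0
    (by rw [dot_comm, hji]) (by rw [dot_comm, hli]) (by rw [dot_comm, hlj])
    (by rw [dot_comm, hlij])
  have ha1 : a1 = kap := by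
    apply Units.ext
    have h4 := ht'.ii
    rw [norm_eq_of_sq hi, hin, neg_neg] at h4
    exact (smul_one_inj h4).symm
  subst ha1
  exact near_of_model ht' (near_kap hS (division_trip' ht' hC') hg)

end Vale.Agent.P011.E6W.H7
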