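import Vale.Agent.P011.E6W.H7.Fin0
import Vale.Agent.P011.E6W.H7.Fin1
import Vale.Agent.P011.E6W.H541.Near
import Vale.Agent.P011.E6W.H684.P1j

/-!
Block E6W: the final statement.
-/

open NumberField Matrix IsDedekindDomain

namespace Vale.Agent.P011.E6W.H7

open Vale.Agent.P011.MPQ hiding mat
open Vale.Agent.P011.D4 Vale.Agent.P011.D4.Oct Vale.Agent.P011.E6
open Vale.Agent.P011.E6O (GO Res KK)
open Vale.Agent.P011.E6W.H183
open Vale.Agent.P011.E6H (IsSextic IsForm OpenAt)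

variable {k E : Type} [Field k] [NumberField k] [Field E] [NumberField E] [Algebra k E]
  {ρ σ : E ≃ₐ[k] E} {lam : Eˣ} {g : Fin 3 → Eˣ} {th s : E} {kap a b c : kˣ}

/-- The stabilizers of the frames close to the standard frame. -/
theorem frRes (W : WH ρ σ lam g th s kap a b c) (hK : H684.KTop k (KK ρ))
    (hgood : ∀ τ : k →+* ℝ, τ a < 0 → τ b < 0 ∧ τ c < 0) {z₀ v₀ : Matrix (Fin 3) (Fin 3) E}
    {q₁ q₀ : k} {w₀ : E →+* ℝ} (B : Base ρ σ lam g a b c z₀ v₀ q₁ q₀ w₀) :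
    FrRes ρ σ lam g a b c z₀ v₀ := by
  obtain ⟨t, ht, h1⟩ := H541.near_cert2 W B
  obtain ⟨w, hwa, hwb, -⟩ := H541.exists_real W.hdiv
  refine ⟨t, ht, fun z v p₂ p₁ p₀ hF hz hv φ hφ hf => ?_⟩
  obtain ⟨i₁, j₁, A, A', C⟩ := h1 z v p₂ p₁ p₀ hF hz hv
  exact H684.frame_res W hK (fun τ ha _ => (hgood τ ha).2) ⟨w, hwa, hwb⟩ C hφ hf

/-- The elements close to the identity belong to the finite residual. -/
theorem near_div (W : WH ρ σ lam g th s kap a b c) (hK : H684.KTop k (KK ρ))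
    (hSix : ∀ {a b c : kˣ} {th s : E} (W : WH ρ σ lam g th s kap a b c),
      One.Tdiv k (KW W) (BW W) = ∅ → SixAt W) :
    ∃ t : ℝ, 0 < t ∧ ∀ φ ∈ GO ρ σ lam g a b c, NearA t φ → φ ∈ Res ρ σ lam g a b c :=
  near_res W (fun W' hT => hSix W' hT) fun W' hgood _ _ _ _ _ B _ => frRes W' hK hgood B

/-- **The final statement**, from the group over the quadratic extension and the special unitary
groups of degree six. -/
theorem main (hK : H684.KTop k (KK ρ))
    (hSix : ∀ {a b c : kˣ} {th s : E} (W : WH ρ σ lam g th s kap a b c),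
      One.Tdiv k (KW W) (BW W) = ∅ → SixAt W)
    (hS : IsSextic ρ σ kap) (hC : Division a b c)
    (hg : IsForm ρ σ lam g) :
    OpenAt (fun _ => True) (E6H.GHer σ g a b c ⊓ E6H.GPh ρ lam a b c) := by
  by_cases hE : Division (up E a) (up E b) (up E c)
  · obtain ⟨th, s, W⟩ := exists_WH hS hE hg
    exact openAt_of_near (near_div W hK hSix)
  · exact openAt_of_near (near_split hS hC hE hg)

end Vale.Agent.P011.E6W.H7
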