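import Vale.Agent.P011.E6W.H7.Kl1

/-!
Block E6W, frames: change of the ground field in the space of hermitian matrices, continued.
-/

open Matrix

namespace Vale.Agent.P011.E6W.H7

open Vale.Agent.P011.MPQ Vale.Agent.P011.D4 Vale.Agent.P011.D4.Oct Vale.Agent.P011.E6 Alb
  Vale.Agent.P011.E6I Vale.Agent.P011.E6I.H68 Vale.Agent.P011.D4X.H62

section cast

set_option linter.unusedSectionVars false

variable {k K M : Type} [Field k] [Field K] [Field M] [Algebra k K] [Algebra K M] [Algebra k M]
  [IsScalarTower k K M] {a b c : kˣ}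

theorem upup (a : kˣ) : ((up M (up K a) : Mˣ) : M) = (up M a : Mˣ) :=
  (IsScalarTower.algebraMap_apply k K M (a : k)).symm

/-- The identity on the coordinates. -/
def qc (x : Qt (up M (up K a)) (up M (up K b))) : Qt (up M a) (up M b) :=
  ⟨x.re, x.imI, x.imJ, x.imK⟩

/-- The identity on the coordinates. -/
def qd (K : Type) [Field K] [Algebra k K] [Algebra K M] (x : Qt (up M a) (up M b)) :
    Qt (up M (up K a)) (up M (up K b)) :=
  ⟨x.re, x.imI, x.imJ, x.imK⟩

@[simp] theorem re_qc (x : Qt (up M (up K a)) (up M (up K b))) : (qc x).re = x.re := rfl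
@[simp] theorem imI_qc (x : Qt (up M (up K a)) (up M (up K b))) : (qc x).imI = x.imI := rfl
@[simp] theorem imJ_qc (x : Qt (up M (up K a)) (up M (up K b))) : (qc x).imJ = x.imJ := rfl
@[simp] theorem imK_qc (x : Qt (up M (up K a)) (up M (up K b))) : (qc x).imK = x.imK := rfl

theorem qc_add (x y : Qt (up M (up K a)) (up M (up K b))) : qc (x + y) = qc x + qc y := rfl

theorem qc_smul (t : M) (x : Qt (up M (up K a)) (up M (up K b))) :
    qc (t • x) = t • qc x := rfl

theorem qc_star (x : Qt (up M (up K a)) (up M (up K b))) : qc (star x) = star (qc x) := by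
  apply QuaternionAlgebra.ext <;> simp

theorem qc_mul (x y : Qt (up M (up K a)) (up M (up K b))) : qc (x * y) = qc x * qc y := by
  have ha := upup (K := K) (M := M) a
  have hb := upup (K := K) (M := M) b
  apply QuaternionAlgebra.ext
  · rw [re_qc, QuaternionAlgebra.re_mul, QuaternionAlgebra.re_mul]
    simp only [re_qc, imI_qc, imJ_qc, imK_qc]
    linear_combination (x.imI * y.imI - (up M (up K b) : Mˣ) * x.imK * y.imK) * ha +
      (x.imJ * y.imJ - (up M a : Mˣ) * x.imK * y.imK) * hb
  · rw [imI_qc, QuaternionAlgebra.imI_mul, QuaternionAlgebra.imI_mul]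
    simp only [re_qc, imI_qc, imJ_qc, imK_qc]
    linear_combination (x.imK * y.imJ - x.imJ * y.imK) * hb
  · rw [imJ_qc, QuaternionAlgebra.imJ_mul, QuaternionAlgebra.imJ_mul]
    simp only [re_qc, imI_qc, imJ_qc, imK_qc]
    linear_combination (x.imI * y.imK - x.imK * y.imI) * ha
  · rw [imK_qc, QuaternionAlgebra.imK_mul, QuaternionAlgebra.imK_mul]
    simp only [re_qc, imI_qc, imJ_qc, imK_qc]

/-- The identity on the coordinates. -/
def oc (K : Type) [Field K] [Algebra k K] [Algebra K M] (a b c : kˣ) :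
    OctL M (up K a) (up K b) (up K c) ≃ₗ[M] OctL M a b c where
  toFun x := ⟨qc x.fst, qc x.snd⟩
  invFun x := ⟨qd K x.fst, qd K x.snd⟩
  left_inv _ := rfl
  right_inv _ := rfl
  map_add' _ _ := rfl
  map_smul' _ _ := rfl

theorem oc_apply (x : OctL M (up K a) (up K b) (up K c)) :
    oc K a b c x = ⟨qc x.fst, qc x.snd⟩ := rfl

theorem oc_star (x : OctL M (up K a) (up K b) (up K c)) :
    oc K a b c (star x) = star (oc K a b c x) :=
  Oct.ext (qc_star _) rfl

theorem oc_one : oc K a b c (1 : OctL M (up K a) (up K b) (up K c)) = 1 := rfl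

theorem oc_mul (x y : OctL M (up K a) (up K b) (up K c)) :
    oc K a b c (x * y) = oc K a b c x * oc K a b c y := by
  have hc := upup (K := K) (M := M) c
  apply Oct.ext
  · rw [oc_apply, fst_mul, fst_mul, qc_add, qc_smul, qc_mul, qc_mul, qc_star, hc]
    rfl
  · rw [oc_apply, snd_mul, snd_mul, qc_add, qc_mul, qc_mul, qc_star]
    rfl

theorem oc_omap {f : M ≃ₐ[K] M} {g : M ≃ₐ[k] M} (h : ∀ t, g t = f t)
    (x : OctL M (up K a) (up K b) (up K c)) :
    oc K a b c (omap f x) = omap g (oc K a b c x) := by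
  apply Oct.ext <;> apply QuaternionAlgebra.ext <;> exact (h _).symm

theorem oc_tri {f : M ≃ₐ[K] M} {g : M ≃ₐ[k] M} (h : ∀ t, g t = f t)
    (x y : OctL M (up K a) (up K b) (up K c)) :
    oc K a b c (tri f x y) = tri g (oc K a b c x) (oc K a b c y) := by
  rw [tri, tri, oc_mul, oc_omap h, oc_omap h, oc_omap h, oc_star, oc_star]

theorem oc_invo {f : M ≃ₐ[K] M} {g : M ≃ₐ[k] M} (h : ∀ t, g t = f t)
    (x : OctL M (up K a) (up K b) (up K c)) :
    oc K a b c (invo f x) = invo g (oc K a b c x) := by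
  rw [invo, invo, oc_omap h, oc_star]

/-- The identity on the coordinates. -/
def ac (K : Type) [Field K] [Algebra k K] [Algebra K M] (a b c : kˣ) :
    AlbL M (up K a) (up K b) (up K c) ≃ₗ[M] AlbL M a b c where
  toFun x := ⟨x.d1, x.d2, x.d3, oc K a b c x.x1, oc K a b c x.x2, oc K a b c x.x3⟩
  invFun x := ⟨x.d1, x.d2, x.d3, (oc K a b c).symm x.x1, (oc K a b c).symm x.x2,
    (oc K a b c).symm x.x3⟩
  left_inv _ := rfl
  right_inv _ := rfl
  map_add' _ _ := rfl
  map_smul' _ _ := rfl

theorem ac_apply (x : AlbL M (up K a) (up K b) (up K c)) :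
    ac K a b c x = ⟨x.d1, x.d2, x.d3, oc K a b c x.x1, oc K a b c x.x2, oc K a b c x.x3⟩ := rfl

theorem ac_cj (H : Matrix (Fin 3) (Fin 3) M) (x : AlbL M (up K a) (up K b) (up K c)) :
    ac K a b c (E6I.cj H x) = E6I.cj H (ac K a b c x) := by
  have hd : ∀ u, dia u (ac K a b c x) = dia u x := fun u => by
    unfold dia
    rw [bil_one_re, bil_one_re, bil_one_re, bil_one_re, bil_one_re, bil_one_re]
    rfl
  have he : ∀ u v, oc K a b c (ent u v x) = ent u v (ac K a b c x) := fun u v => by
    simp only [ent, map_add, map_smul, oc_star, oc_one]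
    rfl
  exact Alb.ext (hd _).symm (hd _).symm (hd _).symm (he _ _) (he _ _) (he _ _)

/-- Transport of the linear maps. -/
def cT (K : Type) [Field K] [Algebra k K] [Algebra K M] {a b c : kˣ} :
    (OctL M (up K a) (up K b) (up K c) ≃ₗ[M] OctL M (up K a) (up K b) (up K c)) ≃*
      (OctL M a b c ≃ₗ[M] OctL M a b c) where
  toFun T := ((oc K a b c).symm.trans T).trans (oc K a b c)
  invFun T := ((oc K a b c).trans T).trans (oc K a b c).symm
  left_inv _ := rfl
  right_inv _ := rfl
  map_mul' _ _ := rfl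

theorem cT_apply (T : OctL M (up K a) (up K b) (up K c) ≃ₗ[M] OctL M (up K a) (up K b) (up K c))
    (x : OctL M (up K a) (up K b) (up K c)) : cT K T (oc K a b c x) = oc K a b c (T x) := rfl

theorem ac_hat {f : M ≃ₐ[K] M} {g : M ≃ₐ[k] M} (h : ∀ t, g t = f t)
    (T : OctL M (up K a) (up K b) (up K c) ≃ₗ[M] OctL M (up K a) (up K b) (up K c))
    (Y : AlbL M (up K a) (up K b) (up K c)) :
    ac K a b c (hat f T Y) = hat g (cT K T) (ac K a b c Y) := by
  apply Alb.ext
  · rfl
  · rfl
  · rfl
  · rfl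
  · change oc K a b c (omap f (omap f (T (omap f Y.x2)))) =
      omap g (omap g (cT K T (omap g (oc K a b c Y.x2))))
    rw [← oc_omap h, cT_apply, ← oc_omap h, ← oc_omap h]
  · change oc K a b c (omap f (T (omap f (omap f Y.x3)))) =
      omap g (cT K T (omap g (omap g (oc K a b c Y.x3))))
    rw [← oc_omap h, ← oc_omap h, cT_apply, ← oc_omap h]

theorem cT_mem {f fi : M ≃ₐ[K] M} {g gi : M ≃ₐ[k] M} (h : ∀ t, g t = f t)
    (hi : ∀ t, gi t = fi t)
    (T : OctL M (up K a) (up K b) (up K c) ≃ₗ[M] OctL M (up K a) (up K b) (up K c)) :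
    T ∈ TriU f {fi} (up K a) (up K b) (up K c) ↔
      (∀ x y, cT K T (tri g x y) = tri g (cT K T x) (cT K T y)) ∧
        ∀ x, cT K T (D4Y.Im gi x) = D4Y.Im gi (cT K T x) := by
  constructor
  · rintro ⟨h1, h2⟩
    refine ⟨fun x y => ?_, fun x => ?_⟩
    · obtain ⟨x, rfl⟩ := (oc K a b c).surjective x
      obtain ⟨y, rfl⟩ := (oc K a b c).surjective y
      rw [← oc_tri h, cT_apply, cT_apply, cT_apply, ← oc_tri h, h1]
    · obtain ⟨x, rfl⟩ := (oc K a b c).surjective x
      have h3 := h2 fi rfl x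
      have h4 := congrArg (oc K a b c) h3
      rw [← cT_apply, oc_invo hi, oc_invo hi, ← cT_apply] at h4
      exact h4
  · rintro ⟨h1, h2⟩
    refine ⟨fun x y => ?_, fun ι hι x => ?_⟩
    · apply (oc K a b c).injective
      rw [← cT_apply, oc_tri h, h1, cT_apply, cT_apply, oc_tri h]
    · rw [Set.mem_singleton_iff] at hι
      subst hι
      apply (oc K a b c).injective
      rw [← cT_apply, oc_invo hi, oc_invo hi, ← cT_apply]
      exact h2 _

end cast

section am

set_option linter.unusedSectionVars false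

variable {k K M : Type} [Field k] [Field K] [Field M] [Algebra k K] [Algebra K M] [Algebra k M]
  [IsScalarTower k K M] {a b c : kˣ}

/-- Extension of scalars from `K` to `M` of the hermitian matrices. -/
def aM (M : Type) [Field M] [Algebra K M] [Algebra k M] (X : AlbL K a b c) : AlbL M a b c :=
  ⟨algebraMap K M X.d1, algebraMap K M X.d2, algebraMap K M X.d3, oin M X.x1, oin M X.x2,
    oin M X.x3⟩

theorem ac_aup (X : AlbL K a b c) : ac K a b c (aup M X) = aM M X := rfl

theorem amap_aM {s : K ≃ₐ[k] K} {σ : M ≃ₐ[k] M}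
    (hs : ∀ t : K, σ (algebraMap K M t) = algebraMap K M (s t)) (X : AlbL K a b c) :
    amap σ (aM M X) = aM M (amap s X) :=
  Alb.ext (hs _) (hs _) (hs _) (omap_oin' hs _) (omap_oin' hs _) (omap_oin' hs _)

/-- Extension of scalars for quaternions, as a ring homomorphism. -/
def qinH (K M : Type) [Field K] [Field M] [Algebra k K] [Algebra K M] [Algebra k M]
    [IsScalarTower k K M] (a b : kˣ) : Qt (up K a) (up K b) →+* Qt (up M a) (up M b) where
  toFun := qin M
  map_one' := QuaternionAlgebra.ext (map_one (algebraMap K M)) (map_zero (algebraMap K M))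
    (map_zero (algebraMap K M)) (map_zero (algebraMap K M))
  map_mul' := qin_mul
  map_zero' := QuaternionAlgebra.ext (map_zero (algebraMap K M)) (map_zero (algebraMap K M))
    (map_zero (algebraMap K M)) (map_zero (algebraMap K M))
  map_add' := qin_add

/-- Extension of scalars for invertible matrices. -/
def mM (M : Type) [Field M] [Algebra K M] [Algebra k M] [IsScalarTower k K M] {a b : kˣ} :
    (Matrix (Fin 3) (Fin 3) (Qt (up K a) (up K b)))ˣ →*
      (Matrix (Fin 3) (Fin 3) (Qt (up M a) (up M b)))ˣ :=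
  Units.map ((qinH K M a b).mapMatrix (m := Fin 3)).toMonoidHom

theorem mM_val (m : (Matrix (Fin 3) (Fin 3) (Qt (up K a) (up K b)))ˣ) :
    (mM M m : Matrix (Fin 3) (Fin 3) (Qt (up M a) (up M b))) =
      (m : Matrix (Fin 3) (Fin 3) (Qt (up K a) (up K b))).map (qin M) := rfl

theorem map_mul_qin {l m n : Type} [Fintype m] (A : Matrix l m (Qt (up K a) (up K b)))
    (B : Matrix m n (Qt (up K a) (up K b))) :
    (A * B).map (qin M) = A.map (qin M) * B.map (qin M) :=
  Matrix.map_mul (f := qinH K M a b)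

theorem map_qin_conjTranspose {l m : Type} (A : Matrix l m (Qt (up K a) (up K b))) :
    Aᴴ.map (qin M) = (A.map (qin M))ᴴ := by
  apply Matrix.ext
  intro i j
  exact qin_star _

theorem mat_aM (x : AlbL K a b c) : Alb.mat (aM M x) = (Alb.mat x).map (qin M) := by
  have h : ∀ t : K, (algebraMap M (Qt (up M a) (up M b)) (algebraMap K M t)) =
      qin M (algebraMap K (Qt (up K a) (up K b)) t) := by
    intro t
    exact QuaternionAlgebra.ext rfl (map_zero _).symm (map_zero _).symm (map_zero _).symm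
  apply Matrix.ext
  intro i j
  fin_cases i <;> fin_cases j
  · exact h _
  · rfl
  · exact (qin_star _).symm
  · exact (qin_star _).symm
  · exact h _
  · rfl
  · rfl
  · exact (qin_star _).symm
  · exact h _

theorem vec_aM (x : AlbL K a b c) (i : Fin 3) : Alb.vec (aM M x) i = qin M (Alb.vec x i) := by
  fin_cases i <;> rfl

theorem aM_ofMV (S : Matrix (Fin 3) (Fin 3) (Qt (up K a) (up K b)))
    (v : Fin 3 → Qt (up K a) (up K b)) :
    aM M (ofMV S v : AlbL K a b c) = ofMV (S.map (qin M)) fun i => qin M (v i) := rfl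

theorem aM_act (m : (Matrix (Fin 3) (Fin 3) (Qt (up K a) (up K b)))ˣ)
    (κ : Qt (up K a) (up K b)) (x : AlbL K a b c) :
    aM M (act m κ x) = act (mM M m) (qin M κ) (aM M x) := by
  unfold act
  rw [aM_ofMV, map_mul_qin, map_mul_qin, map_qin_conjTranspose, ← mat_aM, mM_val]
  congr 1
  funext i
  rw [qin_mul]
  congr 1
  have e : (((mM M m)⁻¹ : (Matrix (Fin 3) (Fin 3) (Qt (up M a) (up M b)))ˣ) :
      Matrix (Fin 3) (Fin 3) (Qt (up M a) (up M b))) =
      ((m⁻¹ : (Matrix (Fin 3) (Fin 3) (Qt (up K a) (up K b)))ˣ) :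
        Matrix (Fin 3) (Fin 3) (Qt (up K a) (up K b))).map (qin M) := by
    rw [← map_inv]
    rfl
  rw [e, vecMul, dotProduct, vecMul, dotProduct, Fin.sum_univ_three, Fin.sum_univ_three, qin_add,
    qin_add, qin_mul, qin_mul, qin_mul, vec_aM, vec_aM, vec_aM]
  rfl

end am

end Vale.Agent.P011.E6W.H7
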