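import Vale.Agent.P011.E6W.H7.Kl2
import Vale.Agent.P011.E6W.H684.Tor

/-!
Block E6W, frames: the semilinear map of the frame, in the coordinates of the frame.
-/

open Matrix

namespace Vale.Agent.P011.E6W.H7

open Vale.Agent.P011.MPQ Vale.Agent.P011.D4 Vale.Agent.P011.D4.Oct Vale.Agent.P011.E6 Alb
  Vale.Agent.P011.E6I Vale.Agent.P011.E6I.H68 Vale.Agent.P011.D4X.H62 Vale.Agent.P011.E6W.H684

section ev

variable {k M : Type} [Field k] [Field M] [Algebra k M]

/-- The value of the polynomial given by the first column of `A`. -/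
def ev (A : Matrix (Fin 3) (Fin 3) k) (x : M) : M :=
  algebraMap k M (A 0 0) + algebraMap k M (A 1 0) * x + algebraMap k M (A 2 0) * x ^ 2

theorem map_ev (σ : M ≃ₐ[k] M) (A : Matrix (Fin 3) (Fin 3) k) (x : M) :
    σ (ev A x) = ev A (σ x) := by
  simp only [ev, map_add, map_mul, map_pow, AlgEquiv.commutes]

/-- The columns of the matrices which commute with the companion matrix. -/
theorem comm_cols {p0 p1 p2 : k} {A : Matrix (Fin 3) (Fin 3) k}
    (hA : Mp p0 p1 p2 * A = A * Mp p0 p1 p2) :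
    A 0 1 = -p0 * A 2 0 ∧ A 1 1 = A 0 0 - p1 * A 2 0 ∧ A 2 1 = A 1 0 - p2 * A 2 0 ∧
      A 0 2 = -p0 * A 2 1 ∧ A 1 2 = A 0 1 - p1 * A 2 1 ∧ A 2 2 = A 1 1 - p2 * A 2 1 := by
  have h := fun i j => congrFun (congrFun hA i) j
  have h00 := h 0 0
  have h10 := h 1 0
  have h20 := h 2 0
  have h01 := h 0 1
  have h11 := h 1 1
  have h21 := h 2 1
  simp only [Mp, Matrix.mul_apply, Fin.sum_univ_three, Matrix.of_apply, Matrix.cons_val_zero,
    Matrix.cons_val_one, Matrix.cons_val, Fin.isValue, mul_zero, mul_one, zero_mul, one_mul,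
    zero_add, add_zero] at h00 h10 h20 h01 h11 h21
  exact ⟨by linear_combination -h00, by linear_combination -h10, by linear_combination -h20,
    by linear_combination -h01, by linear_combination -h11, by linear_combination -h21⟩

theorem ev_row {p0 p1 p2 : k} {A : Matrix (Fin 3) (Fin 3) k}
    (hA : Mp p0 p1 p2 * A = A * Mp p0 p1 p2) {x : M}
    (hx : x ^ 3 + algebraMap k M p2 * x ^ 2 + algebraMap k M p1 * x + algebraMap k M p0 = 0)
    (j : Fin 3) :
    algebraMap k M (A 0 j) + x * algebraMap k M (A 1 j) + x ^ 2 * algebraMap k M (A 2 j) =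
      x ^ (j : ℕ) * ev A x := by
  obtain ⟨h01, h11, h21, h02, h12, h22⟩ := comm_cols hA
  fin_cases j
  · simp only [Fin.mk_zero, pow_zero, ev]
    ring
  · simp only [Fin.mk_one, pow_one, ev, h01, h11, h21]
    simp only [map_sub, map_mul, map_neg]
    linear_combination (-algebraMap k M (A 2 0)) * hx
  · change algebraMap k M (A 0 2) + x * algebraMap k M (A 1 2) + x ^ 2 * algebraMap k M (A 2 2) =
      x ^ 2 * ev A x
    rw [h02, h12, h22, h01, h11, h21, ev]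
    simp only [map_sub, map_mul, map_neg]
    linear_combination (-algebraMap k M (A 2 0) * x - algebraMap k M (A 1 0) +
      algebraMap k M p2 * algebraMap k M (A 2 0)) * hx

end ev

section diag

variable {F : Type} [Field F] {a b c : Fˣ}

theorem act_diag {W : (Matrix (Fin 3) (Fin 3) (Qt a b))ˣ} {φ ψ : Fin 3 → Qt a b}
    (h : (W : Matrix (Fin 3) (Fin 3) (Qt a b)) = diagonal φ)
    (h' : ((W⁻¹ : (Matrix (Fin 3) (Fin 3) (Qt a b))ˣ) : Matrix (Fin 3) (Fin 3) (Qt a b)) =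
      diagonal ψ) (κ : Qt a b) (Y : Alb a b c) :
    act W κ Y = ⟨(φ 0 * algebraMap F _ Y.d1 * star (φ 0)).re,
      (φ 1 * algebraMap F _ Y.d2 * star (φ 1)).re, (φ 2 * algebraMap F _ Y.d3 * star (φ 2)).re,
      ⟨φ 1 * Y.x1.fst * star (φ 2), κ * (Y.x1.snd * ψ 0)⟩,
      ⟨φ 2 * Y.x2.fst * star (φ 0), κ * (Y.x2.snd * ψ 1)⟩,
      ⟨φ 0 * Y.x3.fst * star (φ 1), κ * (Y.x3.snd * ψ 2)⟩⟩ := by
  have e : ∀ i j, ((W : Matrix (Fin 3) (Fin 3) (Qt a b)) * Alb.mat Y *
      (W : Matrix (Fin 3) (Fin 3) (Qt a b)).conjTranspose) i j =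
      φ i * Alb.mat Y i j * star (φ j) := by
    intro i j
    rw [h, diagonal_conjTranspose, mul_diagonal, diagonal_mul]
    rfl
  have e' : ∀ i, vecMul (Alb.vec Y)
      ((W⁻¹ : (Matrix (Fin 3) (Fin 3) (Qt a b))ˣ) : Matrix (Fin 3) (Fin 3) (Qt a b)) i =
      Alb.vec Y i * ψ i := by
    intro i
    rw [h', vecMul_diagonal]
  unfold act
  apply Alb.ext
  · exact congrArg QuaternionAlgebra.re (e 0 0)
  · exact congrArg QuaternionAlgebra.re (e 1 1)
  · exact congrArg QuaternionAlgebra.re (e 2 2)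
  · exact Oct.ext (e 1 2) (congrArg (κ * ·) (e' 0))
  · exact Oct.ext (e 2 0) (congrArg (κ * ·) (e' 1))
  · exact Oct.ext (e 0 1) (congrArg (κ * ·) (e' 2))

theorem nrd_ne_of_diag {W : (Matrix (Fin 3) (Fin 3) (Qt a b))ˣ} {φ : Fin 3 → Qt a b}
    (h : (W : Matrix (Fin 3) (Fin 3) (Qt a b)) = diagonal φ) (i : Fin 3) : nrd (φ i) ≠ 0 := by
  intro h0
  have h1 : ((W : Matrix (Fin 3) (Fin 3) (Qt a b)) *
      ((W⁻¹ : (Matrix (Fin 3) (Fin 3) (Qt a b))ˣ) : Matrix (Fin 3) (Fin 3) (Qt a b))) i i = 1 := by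
    rw [Units.mul_inv, Matrix.one_apply_eq]
  rw [h, diagonal_mul] at h1
  have h2 := congrArg nrd h1
  rw [nrd_mul, h0, zero_mul, nrd_one] at h2
  exact zero_ne_one h2

theorem inv_diag {W : (Matrix (Fin 3) (Fin 3) (Qt a b))ˣ} {φ : Fin 3 → Qt a b}
    (h : (W : Matrix (Fin 3) (Fin 3) (Qt a b)) = diagonal φ) :
    ((W⁻¹ : (Matrix (Fin 3) (Fin 3) (Qt a b))ˣ) : Matrix (Fin 3) (Fin 3) (Qt a b)) =
      diagonal fun i => (nrd (φ i))⁻¹ • star (φ i) := by
  have h1 : (W : Matrix (Fin 3) (Fin 3) (Qt a b)) *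
      diagonal (fun i => (nrd (φ i))⁻¹ • star (φ i)) = 1 := by
    rw [h, diagonal_mul_diagonal, ← diagonal_one]
    congr 1
    funext i
    have h2 : φ i * star (φ i) = nrd (φ i) • (1 : Qt a b) := by
      rw [H64.mul_star_qt]
      apply QuaternionAlgebra.ext <;> simp
    rw [mul_smul_comm, h2, smul_smul, inv_mul_cancel₀ (nrd_ne_of_diag h i), one_smul]
  calc _ = ((W⁻¹ : (Matrix (Fin 3) (Fin 3) (Qt a b))ˣ) : Matrix (Fin 3) (Fin 3) (Qt a b)) *
        ((W : Matrix (Fin 3) (Fin 3) (Qt a b)) *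
          diagonal (fun i => (nrd (φ i))⁻¹ • star (φ i))) := by rw [h1, Matrix.mul_one]
    _ = _ := by rw [← Matrix.mul_assoc, Units.inv_mul, Matrix.one_mul]

end diag

end Vale.Agent.P011.E6W.H7
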