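import Vale.Agent.P011.E6W.H7.Kl3

/-!
Block E6W, frames: the group over the quadratic extension is a quotient of the group `GS`.
-/

open Matrix

namespace Vale.Agent.P011.E6W.H7

open Vale.Agent.P011.MPQ Vale.Agent.P011.D4 Vale.Agent.P011.D4.Oct Vale.Agent.P011.E6 Alb
  Vale.Agent.P011.E6I Vale.Agent.P011.E6I.H68 Vale.Agent.P011.D4X.H62 Vale.Agent.P011.E6W.H684

set_option linter.unusedSectionVars false

section jk

variable {k K : Type} [Field k] [Field K] [Algebra k K] {a b c : kˣ}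

/-- The semilinear map over `K`. -/
def JK (s : K ≃ₐ[k] K) (m : (Matrix (Fin 3) (Fin 3) (Qt (up K a) (up K b)))ˣ) (n : k)
    (X : AlbL K a b c) : AlbL K a b c :=
  act m (algebraMap K _ (algebraMap k K n)) (amap s X)

/-- The fixer of the frame which commutes with the semilinear map. -/
def GK (s : K ≃ₐ[k] K) (p0 p1 p2 : k) {a b : kˣ} (c : kˣ)
    (m : (Matrix (Fin 3) (Fin 3) (Qt (up K a) (up K b)))ˣ) (n : k) :
    Subgroup (AlbL K a b c ≃ₗ[K] AlbL K a b c) where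
  carrier := {g | g ∈ FixK (algebraMap k K p0) (algebraMap k K p1) (algebraMap k K p2) (up K a)
    (up K b) (up K c) ∧ ∀ X, g (JK s m n X) = JK s m n (g X)}
  mul_mem' := by
    rintro g h ⟨g1, g2⟩ ⟨h1, h2⟩
    exact ⟨mul_mem g1 h1, fun X => by rw [LinearEquiv.mul_apply, LinearEquiv.mul_apply, h2, g2]⟩
  one_mem' := ⟨one_mem _, fun _ => rfl⟩
  inv_mem' := by
    rintro g ⟨g1, g2⟩
    have h : ∀ z, g (g⁻¹ z) = z := fun z => by
      rw [← LinearEquiv.mul_apply, mul_inv_cancel]; rfl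
    exact ⟨inv_mem g1, fun X => g.injective (by rw [g2, h, h])⟩

end jk

section js

variable {k M : Type} [Field k] [Field M] [Algebra k M] {a b c : kˣ} {ρ σ : M ≃ₐ[k] M}

/-- The inverses of the diagonal entries. -/
def ps (φ : Fin 3 → Qt (up M a) (up M b)) (i : Fin 3) : Qt (up M a) (up M b) :=
  (nrd (φ i))⁻¹ • star (φ i)

theorem qmap_ps {φ : Fin 3 → Qt (up M a) (up M b)} {i j : Fin 3} (h : qmap ρ (φ i) = φ j) :
    qmap ρ (ps φ i) = ps φ j := by
  rw [ps, ps, qmap_smul, qmap_star, h, map_inv₀, ← nrd_qmap, h]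

theorem JS_eq {φ : Fin 3 → Qt (up M a) (up M b)} (h1 : qmap ρ (φ 1) = φ 0)
    (h0 : qmap ρ (φ 0) = φ 2) {n : k} {Φ : M} (hΦ : Φ = nrd (φ 1)) (y : OctL M a b c) :
    JS ρ σ (φ 1) (algebraMap k M n / ρ Φ) y =
      ⟨φ 1 * qmap σ y.fst * star (φ 2), algebraMap k M n • (qmap σ y.snd * ps φ 0)⟩ := by
  apply Oct.ext
  · change φ 1 * qmap σ y.fst * star (qmap ρ (qmap ρ (φ 1))) = _
    rw [h1, h0]
  · change (algebraMap k M n / ρ Φ) • ((1 : Qt (up M a) (up M b)) * qmap σ y.snd *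
      star (qmap ρ (φ 1))) = algebraMap k M n • (qmap σ y.snd * ps φ 0)
    rw [one_mul, h1, hΦ, ← nrd_qmap, h1, ps, mul_smul_comm, smul_smul, div_eq_mul_inv]

/-- The components of the semilinear map in the coordinates of the frame. -/
def HJ (ρ : M ≃ₐ[k] M) (d0 d1 d2 : M → M) (J : OctL M a b c → OctL M a b c)
    (Y : AlbL M a b c) : AlbL M a b c :=
  ⟨d0 Y.d1, d1 Y.d2, d2 Y.d3, J Y.x1, omap ρ (omap ρ (J (omap ρ Y.x2))),
    omap ρ (J (omap ρ (omap ρ Y.x3)))⟩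

theorem HJ_comm (hρ : ∀ m, ρ (ρ (ρ m)) = m) {d0 d1 d2 : M → M}
    {J : OctL M a b c → OctL M a b c} {T : OctL M a b c → OctL M a b c}
    (h : ∀ y, T (J y) = J (T y)) (Y : AlbL M a b c) :
    hat ρ T (HJ ρ d0 d1 d2 J Y) = HJ ρ d0 d1 d2 J (hat ρ T Y) := by
  apply Alb.ext
  · rfl
  · rfl
  · rfl
  · exact h _
  · change omap ρ (omap ρ (T (omap ρ (omap ρ (omap ρ (J (omap ρ Y.x2))))))) =
      omap ρ (omap ρ (J (omap ρ (omap ρ (omap ρ (T (omap ρ Y.x2)))))))
    rw [Orb.omap_cube hρ, Orb.omap_cube hρ, h]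
  · change omap ρ (T (omap ρ (omap ρ (omap ρ (J (omap ρ (omap ρ Y.x3))))))) =
      omap ρ (J (omap ρ (omap ρ (omap ρ (T (omap ρ (omap ρ Y.x3)))))))
    rw [Orb.omap_cube hρ, Orb.omap_cube hρ, h]

theorem qmap3 (hρ : ∀ m, ρ (ρ (ρ m)) = m) (x : Qt (up M a) (up M b)) :
    qmap ρ (qmap ρ (qmap ρ x)) = x := by
  apply QuaternionAlgebra.ext <;> exact hρ _

theorem qmap_cm (h : ∀ m, σ (ρ m) = ρ (σ m)) (x : Qt (up M a) (up M b)) :
    qmap σ (qmap ρ x) = qmap ρ (qmap σ x) := by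
  apply QuaternionAlgebra.ext <;> exact h _

theorem actW_eq {W : (Matrix (Fin 3) (Fin 3) (Qt (up M a) (up M b)))ˣ}
    {φ : Fin 3 → Qt (up M a) (up M b)}
    (hW : (W : Matrix (Fin 3) (Fin 3) (Qt (up M a) (up M b))) = diagonal φ)
    (hρ : ∀ m, ρ (ρ (ρ m)) = m) (hc : ∀ m, σ (ρ m) = ρ (σ m)) (h1 : qmap ρ (φ 1) = φ 0)
    (h0 : qmap ρ (φ 0) = φ 2) {n : k} {Φ : M} (hΦ : Φ = nrd (φ 1)) (Y : AlbL M a b c) :
    act W ⟨algebraMap k M n, 0, 0, 0⟩ (amap σ Y) =
      HJ ρ (fun d => (φ 0 * algebraMap M _ (σ d) * star (φ 0)).re)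
        (fun d => (φ 1 * algebraMap M _ (σ d) * star (φ 1)).re)
        (fun d => (φ 2 * algebraMap M _ (σ d) * star (φ 2)).re)
        (JS ρ σ (φ 1) (algebraMap k M n / ρ Φ)) Y := by
  have h2 : qmap ρ (φ 2) = φ 1 := by rw [← h0, ← h1, qmap3 hρ]
  have e1 := qmap_ps h1
  have e0 := qmap_ps h0
  have e2 := qmap_ps h2
  have hn : ρ (algebraMap k M n) = algebraMap k M n := ρ.commutes n
  have hs : ∀ x : Qt (up M a) (up M b),
      (⟨algebraMap k M n, 0, 0, 0⟩ : Qt (up M a) (up M b)) * x = algebraMap k M n • x :=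
    fun x => sc_mul _ _
  have hJ := fun y : OctL M a b c => JS_eq (σ := σ) h1 h0 (n := n) hΦ y
  rw [act_diag hW (inv_diag hW)]
  apply Alb.ext
  · rfl
  · rfl
  · rfl
  · change _ = JS ρ σ (φ 1) (algebraMap k M n / ρ Φ) Y.x1
    rw [hJ]
    exact Oct.ext rfl (hs _)
  · change _ = omap ρ (omap ρ (JS ρ σ (φ 1) (algebraMap k M n / ρ Φ) (omap ρ Y.x2)))
    rw [hJ]
    apply Oct.ext
    · change φ 2 * qmap σ Y.x2.fst * star (φ 0) =
        qmap ρ (qmap ρ (φ 1 * qmap σ (qmap ρ Y.x2.fst) * star (φ 2)))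
      rw [qmap_mul, qmap_mul, qmap_mul, qmap_mul, qmap_star, qmap_star, h1, h0, h2, h1,
        qmap_cm hc, qmap3 hρ]
    · change (⟨algebraMap k M n, 0, 0, 0⟩ : Qt (up M a) (up M b)) *
        (qmap σ Y.x2.snd * ps φ 1) =
        qmap ρ (qmap ρ (algebraMap k M n • (qmap σ (qmap ρ Y.x2.snd) * ps φ 0)))
      rw [hs, qmap_smul, qmap_smul, hn, hn, qmap_mul, qmap_mul, e0, e2, qmap_cm hc, qmap3 hρ]
  · change _ = omap ρ (JS ρ σ (φ 1) (algebraMap k M n / ρ Φ) (omap ρ (omap ρ Y.x3)))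
    rw [hJ]
    apply Oct.ext
    · change φ 0 * qmap σ Y.x3.fst * star (φ 1) =
        qmap ρ (φ 1 * qmap σ (qmap ρ (qmap ρ Y.x3.fst)) * star (φ 2))
      rw [qmap_mul, qmap_mul, qmap_star, h1, h2, qmap_cm hc, qmap_cm hc, qmap3 hρ]
    · change (⟨algebraMap k M n, 0, 0, 0⟩ : Qt (up M a) (up M b)) *
        (qmap σ Y.x3.snd * ps φ 2) =
        qmap ρ (algebraMap k M n • (qmap σ (qmap ρ (qmap ρ Y.x3.snd)) * ps φ 0))
      rw [hs, qmap_smul, hn, qmap_mul, e0, qmap_cm hc, qmap_cm hc, qmap3 hρ]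

end js

section main

variable {k K M : Type} [Field k] [Field K] [Field M] [Algebra k K] [Algebra K M] [Algebra k M]
  [IsScalarTower k K M] {a b c : kˣ}

/-- The values of the matrix in the frame. -/
def phi (A B : Matrix (Fin 3) (Fin 3) k) (θ : M) (a b : kˣ) (x : Fin 3 → M) (i : Fin 3) :
    Qt (up M a) (up M b) := ⟨ev A (x i), θ * ev B (x i), 0, 0⟩

theorem qmap_phi {ρ : M ≃ₐ[k] M} {A B : Matrix (Fin 3) (Fin 3) k} {θ : M} (hθ : ρ θ = θ)
    {x : Fin 3 → M} {i j : Fin 3} (h : ρ (x i) = x j) :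
    qmap ρ (phi A B θ a b x i) = phi A B θ a b x j := by
  apply QuaternionAlgebra.ext
  · exact (map_ev ρ A _).trans (congrArg _ h)
  · change ρ (θ * ev B (x i)) = θ * ev B (x j)
    rw [map_mul, hθ, map_ev, h]
  · exact map_zero ρ
  · exact map_zero ρ

/-- The matrix becomes diagonal in the frame. -/
theorem inter {p0 p1 p2 : k} {A B : Matrix (Fin 3) (Fin 3) k}
    (hA : Mp p0 p1 p2 * A = A * Mp p0 p1 p2) (hB : Mp p0 p1 p2 * B = B * Mp p0 p1 p2) {th : K}
    {m : (Matrix (Fin 3) (Fin 3) (Qt (up K a) (up K b)))ˣ}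
    (hm : ∀ i j, (m : Matrix (Fin 3) (Fin 3) (Qt (up K a) (up K b))) i j =
      ⟨algebraMap k K (A i j), th * algebraMap k K (B i j), 0, 0⟩) {x : Fin 3 → M}
    (hx : ∀ i, x i ^ 3 + algebraMap k M p2 * x i ^ 2 + algebraMap k M p1 * x i +
      algebraMap k M p0 = 0) :
    sm (up M a) (up M b) (vandermonde x) *
      (mM M m : Matrix (Fin 3) (Fin 3) (Qt (up M a) (up M b))) =
      diagonal (phi A B (algebraMap K M th) a b x) * sm (up M a) (up M b) (vandermonde x) := by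
  have e : ∀ l j, (mM M m : Matrix (Fin 3) (Fin 3) (Qt (up M a) (up M b))) l j =
      ⟨algebraMap k M (A l j), algebraMap K M th * algebraMap k M (B l j), 0, 0⟩ := by
    intro l j
    rw [mM_val, Matrix.map_apply, hm]
    apply QuaternionAlgebra.ext
    · exact (IsScalarTower.algebraMap_apply k K M _).symm
    · change algebraMap K M (th * algebraMap k K (B l j)) = _
      rw [map_mul, ← IsScalarTower.algebraMap_apply k K M]
    · exact map_zero _
    · exact map_zero _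
  apply Matrix.ext
  intro i j
  have hAi := ev_row hA (hx i) j
  have hBi := ev_row hB (hx i) j
  rw [sm_mul_apply, diagonal_mul, sm_apply, mul_sc, e, e, e]
  simp only [vandermonde_apply, Fin.val_zero, Fin.val_one, Fin.val_two, pow_zero, pow_one]
  apply QuaternionAlgebra.ext
  · change 1 * algebraMap k M (A 0 j) + x i * algebraMap k M (A 1 j) +
      x i ^ 2 * algebraMap k M (A 2 j) = x i ^ (j : ℕ) * ev A (x i)
    rw [one_mul, hAi]
  · change 1 * (algebraMap K M th * algebraMap k M (B 0 j)) +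
      x i * (algebraMap K M th * algebraMap k M (B 1 j)) +
      x i ^ 2 * (algebraMap K M th * algebraMap k M (B 2 j)) =
        x i ^ (j : ℕ) * (algebraMap K M th * ev B (x i))
    linear_combination algebraMap K M th * hBi
  · change (1 : M) * 0 + x i * 0 + x i ^ 2 * 0 = x i ^ (j : ℕ) * 0
    ring
  · change (1 : M) * 0 + x i * 0 + x i ^ 2 * 0 = x i ^ (j : ℕ) * 0
    ring

/-- The matrix of the frame, as a unit. -/
noncomputable def Wu (m : (Matrix (Fin 3) (Fin 3) (Qt (up K a) (up K b)))ˣ) {x : Fin 3 → M}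
    (hV : (vandermonde x).det ≠ 0) : (Matrix (Fin 3) (Fin 3) (Qt (up M a) (up M b)))ˣ :=
  smU _ _ (vandermonde x) hV * mM M m * (smU _ _ (vandermonde x) hV)⁻¹

theorem Wu_val {m : (Matrix (Fin 3) (Fin 3) (Qt (up K a) (up K b)))ˣ} {x : Fin 3 → M}
    (hV : (vandermonde x).det ≠ 0) {φ : Fin 3 → Qt (up M a) (up M b)}
    (h : sm (up M a) (up M b) (vandermonde x) *
      (mM M m : Matrix (Fin 3) (Fin 3) (Qt (up M a) (up M b))) =
      diagonal φ * sm (up M a) (up M b) (vandermonde x)) :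
    (Wu m hV : Matrix (Fin 3) (Fin 3) (Qt (up M a) (up M b))) = diagonal φ := by
  have h1 : (smU (up M a) (up M b) (vandermonde x) hV :
      Matrix (Fin 3) (Fin 3) (Qt (up M a) (up M b))) = sm _ _ (vandermonde x) := rfl
  rw [Wu, Units.val_mul, Units.val_mul, h1, h, Matrix.mul_assoc, ← h1, Units.mul_inv,
    Matrix.mul_one]

/-- The elements over `K` in the coordinates of the frame. -/
noncomputable def Ph' (x : Fin 3 → M) (X : AlbL K a b c) : AlbL M a b c :=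
  E6I.cj (vandermonde x) (aM M X)

theorem ac_Ph (x : Fin 3 → M) (X : AlbL K a b c) : ac K a b c (Ph x X) = Ph' x X := by
  rw [Ph, ac_cj, ac_aup, Ph']

/-- The semilinear map in the coordinates of the frame. -/
theorem Ph'_JK [NeZero (2 : M)] {s : K ≃ₐ[k] K} {σ : M ≃ₐ[k] M}
    (hs : ∀ t : K, σ (algebraMap K M t) = algebraMap K M (s t))
    (m : (Matrix (Fin 3) (Fin 3) (Qt (up K a) (up K b)))ˣ) (n : k) {x : Fin 3 → M}
    (hx : ∀ i, σ (x i) = x i) (hV : (vandermonde x).det ≠ 0) (X : AlbL K a b c) :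
    Ph' x (JK s m n X) = act (Wu m hV) ⟨algebraMap k M n, 0, 0, 0⟩ (amap σ (Ph' x X)) := by
  have h1 : (vandermonde x).map σ = vandermonde x := by
    ext i j
    simp [vandermonde, hx]
  have h2 : qin M (algebraMap K (Qt (up K a) (up K b)) (algebraMap k K n)) =
      (⟨algebraMap k M n, 0, 0, 0⟩ : Qt (up M a) (up M b)) := by
    apply QuaternionAlgebra.ext
    · exact (IsScalarTower.algebraMap_apply k K M _).symm
    · exact map_zero _
    · exact map_zero _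
    · exact map_zero _
  rw [Ph', Ph', amap_cj, h1, amap_aM hs, cj_eq_act _ hV, cj_eq_act _ hV, H64.act_act two_ne_zero,
    JK, aM_act, H64.act_act two_ne_zero, h2]
  congr 1
  · rw [Wu, inv_mul_cancel_right]
  · rw [sc_mul, mul_sc]

end main

end Vale.Agent.P011.E6W.H7
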