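import Vale.Agent.P011.E6W.H7.Kl4

/-!
Block E6W, frames: the group over the quadratic extension is a quotient of the group `GS`.
-/

open Matrix

namespace Vale.Agent.P011.E6W.H7

open Vale.Agent.P011.MPQ Vale.Agent.P011.D4 Vale.Agent.P011.D4.Oct Vale.Agent.P011.E6 Alb
  Vale.Agent.P011.E6I Vale.Agent.P011.E6I.H68 Vale.Agent.P011.D4X.H62 Vale.Agent.P011.E6W.H684

set_option linter.unusedSectionVars false

variable {k K M : Type} [Field k] [Field K] [Field M] [Algebra k K] [Algebra K M] [Algebra k M]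
  [IsScalarTower k K M] {a b c : kˣ}

/-- The hypotheses of the comparison. -/
structure KL (f fi : M ≃ₐ[K] M) (ρ σ ι : M ≃ₐ[k] M) (s : K ≃ₐ[k] K) (p0 p1 p2 : k)
    (x : Fin 3 → M) (A B : Matrix (Fin 3) (Fin 3) k) (th : K) (a b : kˣ)
    (m : (Matrix (Fin 3) (Fin 3) (Qt (up K a) (up K b)))ˣ) (Φ : M) : Prop where
  hf : ∀ t, ρ t = f t
  hfi : ∀ t, ι t = fi t
  hs : ∀ t : K, σ (algebraMap K M t) = algebraMap K M (s t)
  comm : ∀ t, σ (ρ t) = ρ (σ t)
  hx : Cjg f {fi} (algebraMap k K p0) (algebraMap k K p1) (algebraMap k K p2) x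
  hxσ : ∀ i, σ (x i) = x i
  hA : Mp p0 p1 p2 * A = A * Mp p0 p1 p2
  hB : Mp p0 p1 p2 * B = B * Mp p0 p1 p2
  hm : ∀ i j, (m : Matrix (Fin 3) (Fin 3) (Qt (up K a) (up K b))) i j =
      ⟨algebraMap k K (A i j), th * algebraMap k K (B i j), 0, 0⟩
  hΦ : Φ = nrd (phi A B (algebraMap K M th) a b x 1)

variable {f fi : M ≃ₐ[K] M} {ρ σ ι : M ≃ₐ[k] M} {s : K ≃ₐ[k] K} {p0 p1 p2 n : k}
  {x : Fin 3 → M} {A B : Matrix (Fin 3) (Fin 3) k} {th : K}
  {m : (Matrix (Fin 3) (Fin 3) (Qt (up K a) (up K b)))ˣ} {Φ : M}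

theorem KL.root (h : KL f fi ρ σ ι s p0 p1 p2 x A B th a b m Φ) (i : Fin 3) :
    x i ^ 3 + algebraMap k M p2 * x i ^ 2 + algebraMap k M p1 * x i + algebraMap k M p0 = 0 := by
  have e0 := h.hx.e0
  have e1 := h.hx.e1
  have e2 := h.hx.e2
  rw [← IsScalarTower.algebraMap_apply k K M] at e0 e1 e2
  rw [e0, e1, e2]
  fin_cases i
  · change x 0 ^ 3 + _ * x 0 ^ 2 + _ * x 0 + _ = 0
    ring
  · change x 1 ^ 3 + _ * x 1 ^ 2 + _ * x 1 + _ = 0
    ring
  · change x 2 ^ 3 + _ * x 2 ^ 2 + _ * x 2 + _ = 0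
    ring

/-- The semilinear map, with its components. -/
theorem KL.JK_eq (h : KL f fi ρ σ ι s p0 p1 p2 x A B th a b m Φ) [NeZero (2 : M)]
    (h3 : ∀ t, f (f (f t)) = t) (n : k) :
    ∃ d0 d1 d2 : M → M, (∀ X : AlbL K a b c, Ph' x (JK s m n X) =
      HJ ρ d0 d1 d2 (JS ρ σ (phi A B (algebraMap K M th) a b x 1) (algebraMap k M n / ρ Φ))
        (Ph' x X)) ∧
      ∀ _ : AlbL M a b c, ∃ W : (Matrix (Fin 3) (Fin 3) (Qt (up M a) (up M b)))ˣ,
        (∀ Z : AlbL M a b c, HJ ρ d0 d1 d2 (JS ρ σ (phi A B (algebraMap K M th) a b x 1)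
          (algebraMap k M n / ρ Φ)) Z = act W ⟨algebraMap k M n, 0, 0, 0⟩ (amap σ Z)) := by
  have hV := det_ne h.hx
  have hθ : ρ (algebraMap K M th) = algebraMap K M th := by rw [h.hf, f.commutes]
  have h10 : ρ (x 1) = x 0 := by rw [h.hf, h.hx.r1]
  have h02 : ρ (x 0) = x 2 := by rw [h.hf, h.hx.r0]
  have hρ : ∀ t, ρ (ρ (ρ t)) = t := fun t => by rw [h.hf, h.hf, h.hf, h3]
  have hW := Wu_val hV (inter (a := a) (b := b) h.hA h.hB h.hm h.root)
  have e := fun Z : AlbL M a b c => actW_eq (σ := σ) hW hρ h.comm (qmap_phi hθ h10)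
    (qmap_phi hθ h02) (n := n) h.hΦ Z
  exact ⟨_, _, _, fun X => (Ph'_JK h.hs m n h.hxσ hV X).trans (e _),
    fun _ => ⟨Wu m hV, fun Z => (e Z).symm⟩⟩

theorem Ph'_injective (hV : (vandermonde x).det ≠ 0) :
    Function.Injective (Ph' x : AlbL K a b c → AlbL M a b c) := by
  intro X Y hXY
  rw [← ac_Ph, ← ac_Ph] at hXY
  have h1 := (ac K a b c).injective hXY
  exact aup_injective ((cjE (vandermonde x) hV).injective h1)

/-- Commutation over `K` and over `M`. -/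
theorem KL.comm_iff (h : KL f fi ρ σ ι s p0 p1 p2 x A B th a b m Φ) [NeZero (2 : M)]
    (h3 : ∀ t, f (f (f t)) = t) {g : AlbL K a b c ≃ₗ[K] AlbL K a b c}
    {T : OctL M a b c ≃ₗ[M] OctL M a b c} (hg : ∀ X, Ph' x (g X) = hat ρ T (Ph' x X)) :
    (∀ X, g (JK s m n X) = JK s m n (g X)) ↔
      ∀ y, T (JS ρ σ (phi A B (algebraMap K M th) a b x 1) (algebraMap k M n / ρ Φ) y) =
        JS ρ σ (phi A B (algebraMap K M th) a b x 1) (algebraMap k M n / ρ Φ) (T y) := by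
  obtain ⟨d0, d1, d2, hJ, hW⟩ := h.JK_eq (c := c) h3 n
  obtain ⟨W, hW⟩ := hW 0
  have hV := det_ne h.hx
  have hρ : ∀ t, ρ (ρ (ρ t)) = t := fun t => by rw [h.hf, h.hf, h.hf, h3]
  set J := JS ρ σ (phi A B (algebraMap K M th) a b x 1) (algebraMap k M n / ρ Φ) (c := c) with hJd
  constructor
  · intro hc
    have hadd : ∀ Y Z : AlbL M a b c, HJ ρ d0 d1 d2 J (Y + Z) =
        HJ ρ d0 d1 d2 J Y + HJ ρ d0 d1 d2 J Z := fun Y Z => by
      rw [hW, hW, hW, amap_add, H64.act_add]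
    have hsmul : ∀ (t : M) (Y : AlbL M a b c), HJ ρ d0 d1 d2 J (t • Y) =
        σ t • HJ ρ d0 d1 d2 J Y := fun t Y => by
      rw [hW, hW, amap_smul, H64.act_smul]
    let L1 : AlbL M (up K a) (up K b) (up K c) →ₗ[M] AlbL M a b c :=
      { toFun := fun Z => amap σ.symm (hat ρ T (HJ ρ d0 d1 d2 J
          (E6I.cj (vandermonde x) (ac K a b c Z))))
        map_add' := fun Z Z' => by rw [map_add, E6I.cj_add, hadd, hat_add, amap_add]
        map_smul' := fun t Z => by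
          rw [map_smul, E6I.cj_smul, hsmul, hat_smul hρ, amap_smul, σ.symm_apply_apply]
          rfl }
    let L2 : AlbL M (up K a) (up K b) (up K c) →ₗ[M] AlbL M a b c :=
      { toFun := fun Z => amap σ.symm (HJ ρ d0 d1 d2 J (hat ρ T
          (E6I.cj (vandermonde x) (ac K a b c Z))))
        map_add' := fun Z Z' => by rw [map_add, E6I.cj_add, hat_add, hadd, amap_add]
        map_smul' := fun t Z => by
          rw [map_smul, E6I.cj_smul, hat_smul hρ, hsmul, amap_smul, σ.symm_apply_apply]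
          rfl }
    have hL : L1 = L2 := by
      apply Rl.alb_unique
      intro X
      change amap σ.symm (hat ρ T (HJ ρ d0 d1 d2 J (Ph' x X))) =
        amap σ.symm (HJ ρ d0 d1 d2 J (hat ρ T (Ph' x X)))
      rw [← hJ, ← hg, ← hg, ← hJ, hc]
    have key : ∀ Y, hat ρ T (HJ ρ d0 d1 d2 J Y) = HJ ρ d0 d1 d2 J (hat ρ T Y) := by
      intro Y
      have h1 := congrArg (fun L : AlbL M (up K a) (up K b) (up K c) →ₗ[M] AlbL M a b c =>
        amap σ (L ((ac K a b c).symm (E6I.cj (vandermonde x)⁻¹ Y)))) hL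
      change amap σ (amap σ.symm (hat ρ T (HJ ρ d0 d1 d2 J (E6I.cj (vandermonde x)
        (ac K a b c ((ac K a b c).symm (E6I.cj (vandermonde x)⁻¹ Y))))))) =
        amap σ (amap σ.symm (HJ ρ d0 d1 d2 J (hat ρ T (E6I.cj (vandermonde x)
        (ac K a b c ((ac K a b c).symm (E6I.cj (vandermonde x)⁻¹ Y))))))) at h1
      rwa [(H68.amap_symm σ _).1, (H68.amap_symm σ _).1, LinearEquiv.apply_symm_apply,
        cj_inv' hV] at h1
    intro y
    exact congrArg Alb.x1 (key ⟨0, 0, 0, y, 0, 0⟩)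
  · intro hc X
    apply Ph'_injective hV
    rw [hg, hJ, hJ, hg, HJ_comm hρ hc]

/-- The group over `K` is a quotient of the group `GS`. -/
theorem KL.top {E : Type} [Field E] [Algebra K E] [Algebra E M] [CharZero K]
    (h : KL f fi ρ σ ι s p0 p1 p2 x A B th a b m Φ) (hU : SetU K E M f {fi})
    (htop : ∀ N : Subgroup (GS ρ σ ι c (phi A B (algebraMap K M th) a b x 1)
      (algebraMap k M n / ρ Φ)), N.index ≠ 0 → N = ⊤)
    (N : Subgroup (GK s p0 p1 p2 c m n)) (hN : N.index ≠ 0) : N = ⊤ := by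
  have hcM : CharZero M := charZero_of_injective_algebraMap (algebraMap K M).injective
  have h2 : NeZero (2 : M) := ⟨two_ne_zero⟩
  have h3 := hU.r3
  have hV := det_ne h.hx
  have hinj := Ph'_injective (K := K) (a := a) (b := b) (c := c) hV
  have hρ : ∀ t, ρ (ρ (ρ t)) = t := fun t => by rw [h.hf, h.hf, h.hf, h3]
  have key1 : ∀ T ∈ GS ρ σ ι c (phi A B (algebraMap K M th) a b x 1) (algebraMap k M n / ρ Φ),
      ∃ g ∈ GK s p0 p1 p2 c m n, ∀ X, Ph' x (g X) = hat ρ T (Ph' x X) := by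
    rintro T ⟨t1, t2, t3⟩
    obtain ⟨T', rfl⟩ := (cT (M := M) K).surjective T
    obtain ⟨g, hg, hgX⟩ := exists_g hU h.hx ((cT_mem h.hf h.hfi T').2 ⟨t1, t3⟩)
    have hg' : ∀ X, Ph' x (g X) = hat ρ (cT K T') (Ph' x X) := fun X => by
      rw [← ac_Ph, hgX, ac_hat h.hf, ac_Ph]
    exact ⟨g, ⟨hg, (h.comm_iff h3 hg').2 t2⟩, hg'⟩
  have key2 : ∀ g ∈ GK s p0 p1 p2 c m n, ∃ T ∈ GS ρ σ ι c (phi A B (algebraMap K M th) a b x 1)
      (algebraMap k M n / ρ Φ), ∀ X, Ph' x (g X) = hat ρ T (Ph' x X) := by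
    rintro g ⟨g1, g2⟩
    obtain ⟨T', hT', hgX⟩ := exists_T hU h.hx g1
    have hg' : ∀ X, Ph' x (g X) = hat ρ (cT K T') (Ph' x X) := fun X => by
      rw [← ac_Ph, hgX, ac_hat h.hf, ac_Ph]
    obtain ⟨t1, t3⟩ := (cT_mem h.hf h.hfi T').1 hT'
    exact ⟨cT K T', ⟨t1, (h.comm_iff h3 hg').1 g2, t3⟩, hg'⟩
  choose F hF hF' using fun T : GS ρ σ ι c (phi A B (algebraMap K M th) a b x 1)
    (algebraMap k M n / ρ Φ) => key1 T.1 T.2
  have huniq : ∀ (g g' : GK s p0 p1 p2 c m n), (∀ X, Ph' x (g.1 X) = Ph' x (g'.1 X)) → g = g' :=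
    fun g g' h => Subtype.ext (LinearEquiv.ext fun X => hinj (h X))
  let Λ : GS ρ σ ι c (phi A B (algebraMap K M th) a b x 1) (algebraMap k M n / ρ Φ) →*
      GK s p0 p1 p2 c m n :=
    { toFun := fun T => ⟨F T, hF T⟩
      map_one' := huniq _ _ fun X => by
        change Ph' x (F 1 X) = Ph' x X
        rw [hF']
        exact hat_one hρ _
      map_mul' := fun T T' => huniq _ _ fun X => by
        change Ph' x (F (T * T') X) = Ph' x (F T (F T' X))
        rw [hF', hF', hF']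
        exact hat_mul hρ _ _ _ }
  have hΛ : Function.Surjective Λ := fun g => by
    obtain ⟨T, hT, hg⟩ := key2 g.1 g.2
    refine ⟨⟨T, hT⟩, huniq _ _ fun X => ?_⟩
    rw [hg]
    exact hF' ⟨T, hT⟩ X
  have h1 : N.comap Λ = ⊤ := htop _ (by
    rw [Subgroup.index_comap_of_surjective _ hΛ]
    exact hN)
  rw [eq_top_iff]
  intro g _
  obtain ⟨T, rfl⟩ := hΛ g
  have h2 : T ∈ N.comap Λ := h1 ▸ Subgroup.mem_top T
  exact h2

end Vale.Agent.P011.E6W.H7
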