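import Vale.Agent.P011.E6W.H7.Kl5
import Vale.Agent.P011.E6W.H684.GsTop

/-!
Block E6W, frames: the group over the quadratic extension has no proper subgroup of finite index.
-/

open Matrix NumberField

namespace Vale.Agent.P011.E6W.H7

open Vale.Agent.P011.MPQ Vale.Agent.P011.D4 Vale.Agent.P011.D4.Oct Vale.Agent.P011.E6 Alb
  Vale.Agent.P011.E6I Vale.Agent.P011.E6I.H68 Vale.Agent.P011.D4X.H62 Vale.Agent.P011.E6W.H684

section det

variable {k M : Type} [Field k] [Field M] [Algebra k M] {p0 p1 p2 : k}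
  {A B : Matrix (Fin 3) (Fin 3) k} {x : Fin 3 → M}

theorem V_mul (hA : Mp p0 p1 p2 * A = A * Mp p0 p1 p2)
    (hx : ∀ i, x i ^ 3 + algebraMap k M p2 * x i ^ 2 + algebraMap k M p1 * x i +
      algebraMap k M p0 = 0) :
    vandermonde x * A.map (algebraMap k M) = diagonal (fun i => ev A (x i)) * vandermonde x := by
  apply Matrix.ext
  intro i j
  have h := ev_row hA (hx i) j
  rw [Matrix.mul_apply, Fin.sum_univ_three, diagonal_mul]
  simp only [vandermonde_apply, Fin.val_zero, Fin.val_one, Fin.val_two, pow_zero, pow_one,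
    Matrix.map_apply]
  linear_combination h

theorem trace_adj (hA : Mp p0 p1 p2 * A = A * Mp p0 p1 p2)
    (hB : Mp p0 p1 p2 * B = B * Mp p0 p1 p2)
    (hx : ∀ i, x i ^ 3 + algebraMap k M p2 * x i ^ 2 + algebraMap k M p1 * x i +
      algebraMap k M p0 = 0) (hV : (vandermonde x).det ≠ 0) :
    algebraMap k M (A * B.adjugate).trace = ev A (x 0) * ev B (x 1) * ev B (x 2) +
      ev B (x 0) * ev A (x 1) * ev B (x 2) + ev B (x 0) * ev B (x 1) * ev A (x 2) := by
  set V := vandermonde x with hVd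
  set A' := A.map (algebraMap k M) with hA'
  set B' := B.map (algebraMap k M) with hB'
  have h1 := V_mul hA hx
  have h2 := V_mul hB hx
  rw [← hVd, ← hA'] at h1
  rw [← hVd, ← hB'] at h2
  have h3 : B'.adjugate * V.adjugate = V.adjugate * (diagonal fun i => ev B (x i)).adjugate := by
    rw [← adjugate_mul_distrib, h2, adjugate_mul_distrib]
  have h4 : V.det * (A' * B'.adjugate).trace =
      V.det * (diagonal (fun i => ev A (x i)) * (diagonal fun i => ev B (x i)).adjugate).trace := by
    calc V.det * (A' * B'.adjugate).trace = (A' * B'.adjugate * (V.adjugate * V)).trace := by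
          rw [adjugate_mul, Matrix.mul_smul, Matrix.mul_one, trace_smul, smul_eq_mul]
      _ = (A' * (V.adjugate * (diagonal fun i => ev B (x i)).adjugate) * V).trace := by
          rw [← h3]
          simp only [Matrix.mul_assoc]
      _ = (V * A' * (V.adjugate * (diagonal fun i => ev B (x i)).adjugate)).trace := by
          rw [trace_mul_comm, Matrix.mul_assoc]
      _ = (diagonal (fun i => ev A (x i)) * (V * V.adjugate) *
          (diagonal fun i => ev B (x i)).adjugate).trace := by
          rw [h1]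
          simp only [Matrix.mul_assoc]
      _ = _ := by
          rw [mul_adjugate, Matrix.mul_smul, Matrix.mul_one, Matrix.smul_mul, trace_smul,
            smul_eq_mul]
  have h5 := mul_left_cancel₀ hV h4
  have h6 : algebraMap k M (A * B.adjugate).trace = (A' * B'.adjugate).trace := by
    have e1 : B'.adjugate = B.adjugate.map (algebraMap k M) :=
      (RingHom.map_adjugate (algebraMap k M) B).symm
    rw [e1, hA', ← Matrix.map_mul]
    exact AddMonoidHom.map_trace (algebraMap k M).toAddMonoidHom _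
  rw [h6, h5, adjugate_fin_three, Matrix.trace, Fin.sum_univ_three]
  simp [Matrix.mul_apply, diagonal]
  ring

theorem det_eq (hA : Mp p0 p1 p2 * A = A * Mp p0 p1 p2)
    (hx : ∀ i, x i ^ 3 + algebraMap k M p2 * x i ^ 2 + algebraMap k M p1 * x i +
      algebraMap k M p0 = 0) (hV : (vandermonde x).det ≠ 0) :
    algebraMap k M A.det = ev A (x 0) * ev A (x 1) * ev A (x 2) := by
  have h1 := congrArg Matrix.det (V_mul hA hx)
  rw [det_mul, det_mul, det_diagonal, Fin.prod_univ_three, mul_comm] at h1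
  have h2 := mul_right_cancel₀ hV h1
  rw [← h2]
  exact RingHom.map_det (algebraMap k M) A

end det

section quat

variable {F : Type} [Field F] {a b : Fˣ}

theorem imJ_mul3 (s t s' t' s'' t'' : F) :
    ((⟨s, t, 0, 0⟩ : Qt a b) * ⟨s', t', 0, 0⟩ * ⟨s'', t'', 0, 0⟩).imJ = 0 := by
  rw [QuaternionAlgebra.imJ_mul, QuaternionAlgebra.imJ_mul, QuaternionAlgebra.imK_mul]
  ring

theorem imK_mul3 (s t s' t' s'' t'' : F) :
    ((⟨s, t, 0, 0⟩ : Qt a b) * ⟨s', t', 0, 0⟩ * ⟨s'', t'', 0, 0⟩).imK = 0 := by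
  rw [QuaternionAlgebra.imK_mul, QuaternionAlgebra.imJ_mul, QuaternionAlgebra.imK_mul]
  ring

end quat

section top

variable {k K L M : Type} [Field k] [NumberField k] [Field K] [Field L] [NumberField L] [Field M]
  [NumberField M] [Algebra k K] [Algebra K M] [Algebra k M] [Algebra k L] [Algebra L M]
  [IsScalarTower k K M] [IsScalarTower k L M] {a b c : kˣ}

/-- **The group over `K`** has no proper subgroup of finite index, given the Galois closure. -/
theorem gk_top_of {E : Type} [Field E] [Algebra K E] [Algebra E M] {ρ σ ι : M ≃ₐ[k] M}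
    {f fi : M ≃ₐ[K] M} (hTI : TIAll k L) (H : MH (L := L) ρ σ ι) (hf : ∀ t, ρ t = f t) (hfi : ∀ t, ι t = fi t)
    (hU : SetU K E M f {fi}) {s : K ≃ₐ[k] K} {th : K} {kap : k}
    (hth : th * th = algebraMap k K kap) (hsth : s th = -th)
    (hs : ∀ t : K, σ (algebraMap K M t) = algebraMap K M (s t)) {p0 p1 p2 : k} {x : Fin 3 → M}
    (hx : Cjg f {fi} (algebraMap k K p0) (algebraMap k K p1) (algebraMap k K p2) x)
    (hxσ : ∀ i, σ (x i) = x i) {y : L} (hy : x 1 = algebraMap L M y)
    (ha : ∀ z : M, z * z ≠ algebraMap k M a) (hdiv : Division a b c)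
    (hdef : ∀ τ : k →+* ℝ, τ a < 0 → τ b < 0 ∧ τ c < 0)
    (hcp : ∃ τ : k →+* ℝ, τ a < 0 ∧ 0 < τ kap) {A B : Matrix (Fin 3) (Fin 3) k}
    (hA : Mp p0 p1 p2 * A = A * Mp p0 p1 p2) (hB : Mp p0 p1 p2 * B = B * Mp p0 p1 p2) {n : kˣ}
    (hN1 : A.det + kap * a * (A * B.adjugate).trace = n)
    (hN2 : (A.adjugate * B).trace + kap * a * B.det = 0)
    {m : (Matrix (Fin 3) (Fin 3) (Qt (up K a) (up K b)))ˣ}
    (hm : ∀ i j, (m : Matrix (Fin 3) (Fin 3) (Qt (up K a) (up K b))) i j =
      ⟨algebraMap k K (A i j), th * algebraMap k K (B i j), 0, 0⟩)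
    (N : Subgroup (GK s p0 p1 p2 c m (n : k))) (hN : N.index ≠ 0) : N = ⊤ := by
  obtain ⟨θ, hθ⟩ : ∃ θ, θ = algebraMap K M th := ⟨_, rfl⟩
  have hρθ : ρ θ = θ := by rw [hθ, hf, f.commutes]
  have hιθ : ι θ = θ := by rw [hθ, hfi, fi.commutes]
  have hσθ : σ θ = -θ := by rw [hθ, hs, hsth, map_neg]
  have hθθ : θ * θ = algebraMap k M kap := by
    rw [hθ, ← map_mul, hth, ← IsScalarTower.algebraMap_apply k K M]
  have h10 : ρ (x 1) = x 0 := by rw [hf, hx.r1]
  have h02 : ρ (x 0) = x 2 := by rw [hf, hx.r0]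
  have hι1 : ι (x 1) = x 2 := by rw [hfi, hx.i1 fi rfl]
  -- the element of `L`
  obtain ⟨Φ, hΦ⟩ : ∃ Φ : L, Φ = ev A y ^ 2 - algebraMap k L (a * kap) * ev B y ^ 2 := ⟨_, rfl⟩
  have hev : ∀ A : Matrix (Fin 3) (Fin 3) k, algebraMap L M (ev A y) = ev A (x 1) := fun A => by
    rw [hy]
    simp only [ev, map_add, map_mul, map_pow, ← IsScalarTower.algebraMap_apply k L M]
  have hΦM : algebraMap L M Φ =
      ev A (x 1) ^ 2 - algebraMap k M a * (θ * ev B (x 1)) ^ 2 := by
    rw [hΦ, map_sub, map_mul, map_pow, map_pow, hev, hev,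
      ← IsScalarTower.algebraMap_apply k L M, map_mul]
    linear_combination (algebraMap k M a * ev B (x 1) ^ 2) * hθθ
  have hΦn : algebraMap L M Φ = nrd (phi A B (algebraMap K M th) a b x 1) := by
    rw [hΦM, hθ]
    simp only [nrd, phi, up]
    change _ = _ ^ 2 - algebraMap k M a * _ ^ 2 - algebraMap k M b * (0 : M) ^ 2 +
      algebraMap k M a * algebraMap k M b * (0 : M) ^ 2
    ring
  have hKL : KL f fi ρ σ ι s p0 p1 p2 x A B th a b m (algebraMap L M Φ) :=
    { hf := hf
      hfi := hfi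
      hs := hs
      comm := H.comm
      hx := hx
      hxσ := hxσ
      hA := hA
      hB := hB
      hm := hm
      hΦ := hΦn }
  have hV := det_ne hx
  have hW := Wu_val hV (inter (a := a) (b := b) hA hB hm hKL.root)
  have hΦ0 : Φ ≠ 0 := by
    rintro h0
    refine nrd_ne_of_diag hW 1 ?_
    rw [← hΦn, h0, map_zero]
  have hcK : CharZero K := charZero_of_injective_algebraMap (algebraMap k K).injective
  refine hKL.top hU (fun N' hN' => ?_) N hN
  have hS : SD (L := L) ρ σ ι a b (ev A (x 1)) (θ * ev B (x 1)) n (Units.mk0 Φ hΦ0) :=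
    { σ0 := by rw [map_ev, hxσ]
      ι0 := by rw [map_ev, map_ev, map_ev, hι1, h10, h02]
      σ1 := by rw [map_mul, hσθ, map_ev, hxσ, neg_mul]
      ι1 := by rw [map_mul, map_mul, map_mul, hιθ, hρθ, hρθ, map_ev, map_ev, map_ev, hι1, h10, h02]
      N := by
        have e1 : qS a b (ev A (x 1)) (θ * ev B (x 1)) = phi A B θ a b x 1 := rfl
        rw [e1, qmap_phi hρθ h10, qmap_phi hρθ h02]
        have d1 := det_eq hA hKL.root hV
        have d2 := det_eq hB hKL.root hV
        have d3 := trace_adj hA hB hKL.root hV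
        have d4 := trace_adj hB hA hKL.root hV
        have n1 := congrArg (algebraMap k M) hN1
        have n2 := congrArg (algebraMap k M) hN2
        rw [trace_mul_comm] at n2
        simp only [map_add, map_mul, map_zero, d1, d2, d3, d4, ← hθθ] at n1 n2
        apply QuaternionAlgebra.ext
        · rw [phi, phi, phi, re_mul3]
          change _ = algebraMap k M n * 1
          rw [← n1]
          change _ + algebraMap k M a * _ = _
          ring
        · rw [phi, phi, phi, imI_mul3]
          change _ + algebraMap k M a * _ = algebraMap k M n * 0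
          linear_combination θ * n2
        · exact (imJ_mul3 _ _ _ _ _ _).trans (mul_zero _).symm
        · exact (imK_mul3 _ _ _ _ _ _).trans (mul_zero _).symm
      Φ := hΦM }
  subst hθ
  refine gs_top hTI H hdiv hdef ha hS ?_ N' hN'
  obtain ⟨τ, h1, h2⟩ := hcp
  refine ⟨τ, h1, fun w hw => ?_⟩
  have h3 : w Φ = w (ev A y) ^ 2 + (-τ a) * τ kap * w (ev B y) ^ 2 := by
    have h4 : w (algebraMap k L (a * kap)) = τ a * τ kap := by
      rw [← map_mul, ← hw]
      rfl
    rw [hΦ, map_sub, map_mul, map_pow, map_pow, h4]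
    ring
  have h5 : 0 ≤ w Φ := by
    rw [h3]
    have h6 : 0 ≤ (-τ a) * τ kap := mul_nonneg (by linarith) h2.le
    positivity
  exact lt_of_le_of_ne h5 fun h6 => hΦ0 ((map_eq_zero w).1 h6.symm)

end top

end Vale.Agent.P011.E6W.H7
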