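import Vale.Agent.P011.D4W.H7.Fin
import Vale.Agent.P011.D4W.H7.ShortAll
import Vale.Agent.P011.D4W.H619.StepT
import Vale.Agent.P011.E6W.H684.GsTop

/-!
Block E6W: the trialitarian groups of noncyclic cubic extensions, as groups of linear maps.
-/

open NumberField

namespace Vale.Agent.P011.E6W.H7

open Vale.Agent.P011.MPQ Vale.Agent.P011.D4 Vale.Agent.P011.D4.Oct Vale.Agent.P011.D4W
  Vale.Agent.P011.D4W.H7

/-- The trialitarian groups of noncyclic cubic extensions have no proper subgroup of finite
index. -/
theorem tiAll (k L : Type) [Field k] [NumberField k] [Field L] [NumberField L] [Algebra k L] :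
    H684.TIAll k L := by
  intro E _ _ _ _ _ ρ σ ι α a b c q H hdef N hN
  have h2 : NeZero (2 : E) := ⟨two_ne_zero⟩
  have hS : ShortAll k L := shortAll k L
  have hT : LeAll k L := le_of_swap (H619.leSwap hS)
  refine eq_top_iff.2 fun x _ => D4H.mem_of_RsI hN ?_
  exact gt_topI H hdef hS
    (open_top_of hS H fun h _ hz hp => hT E ρ σ ι α a b c q H hdef h hz hp) x.2

end Vale.Agent.P011.E6W.H7
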