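import Vale.Agent.P011.D4X.H657.Zx
import Vale.Agent.P011.D4Y.H862.Bas

/-!
Block E6W: the torus element which exchanges the two forms of the trialitarian group.
-/

open Vale.Agent.P011.MPQ Vale.Agent.P011.D4 Vale.Agent.P011.D4.Oct Vale.Agent.P011.D4X
open Vale.Agent.P011.D4Y (Im)

namespace Vale.Agent.P011.E6W.H7

section diag

variable {k E : Type} [Field k] [Field E] [Algebra k E] {a b c : kˣ} {ρ σ : E ≃ₐ[k] E} {α : E}

/-- The element `s e₊ + s' e₋`. -/
def dd (a b : kˣ) (α s s' : E) : Qt (up E a) (up E b) := mk4 (up E a) (up E b) α s s' 0 0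

theorem dd_mul [NeZero (2 : E)] (hα : α * α = algebraMap k E a) (s s' u u' : E) :
    dd a b α s s' * dd a b α u u' = dd a b α (s * u) (s' * u') := diag_mul hα s s' u u'

theorem star_dd (s s' : E) : star (dd a b α s s') = dd a b α s' s := by
  rw [dd, star_mk4, neg_zero, dd]

theorem qmap_dd (hρα : ρ α = α) (s s' : E) : qmap ρ (dd a b α s s') = dd a b α (ρ s) (ρ s') := by
  rw [dd, qmap_mk4 hρα, map_zero, dd]

theorem qmap_dd' (hσα : σ α = -α) (s s' : E) :
    qmap σ (dd a b α s s') = dd a b α (σ s') (σ s) := by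
  rw [dd, qmap_mk4' hσα, map_zero, dd]

theorem smul_dd (r s s' : E) : r • dd a b α s s' = dd a b α (r * s) (r * s') := by
  rw [dd, smul_mk4, mul_zero, dd]

theorem nrd_dd (hα : α * α = algebraMap k E a) [NeZero (2 : E)] (s s' : E) :
    nrd (dd a b α s s') = s * s' := by
  rw [dd, nrd_mk4 hα, mul_zero, mul_zero, sub_zero]

theorem mq_dd (s : E) : mq a b α s = dd a b α s 1 := mq_eq s

theorem qstar_smul (r : E) (x : Qt (up E a) (up E b)) : star (r • x) = r • star x :=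
  QuaternionAlgebra.star_smul r x

theorem fomap (x : OctL E a b c) : (omap σ x).fst = qmap σ x.fst := rfl

theorem somap (x : OctL E a b c) : (omap σ x).snd = qmap σ x.snd := rfl

/-- The similitude attached to `s e₊ + s' e₋` and `t`. -/
def zd (ρ : E ≃ₐ[k] E) (α s s' t : E) {a b c : kˣ} (y : OctL E a b c) : OctL E a b c :=
  zFun ρ (dd a b α s s') 1 t y

theorem zd_add (s s' t : E) (y z : OctL E a b c) :
    zd ρ α s s' t (y + z) = zd ρ α s s' t y + zd ρ α s s' t z := zFun_add _ _ _ _ _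

theorem zd_smul' (s s' t r : E) (y : OctL E a b c) :
    zd ρ α s s' t (r • y) = r • zd ρ α s s' t y := zFun_smul _ _ _ _ _

theorem zd_zd [NeZero (2 : E)] (hα : α * α = algebraMap k E a) (s s' t u u' v : E)
    (y : OctL E a b c) :
    zd ρ α s s' t (zd ρ α u u' v y) = zd ρ α (s * u) (s' * u') (t * v) y := by
  unfold zd
  rw [zFun_mul, dd_mul hα, one_mul]

/-- Two of the similitudes differ by a scalar. -/
theorem zd_scal (s s' t g r : E) (y : OctL E a b c)
    (h : g * ρ (ρ g) * t = ρ g * r) :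
    zd ρ α (g * s) (g * s') r y = (g * ρ (ρ g)) • zd ρ α s s' t y := by
  unfold zd
  ext1
  · rw [fst_zFun, fst_smul, fst_zFun, ← smul_dd, qmap_smul, qmap_smul, qstar_smul,
      smul_mul_assoc, smul_mul_assoc, mul_smul_comm, smul_smul]
  · rw [snd_zFun, snd_smul, snd_zFun, ← smul_dd, qmap_smul, qstar_smul, mul_smul_comm, smul_smul,
      smul_smul, h, mul_comm r]

/-- Commutation with an automorphism which fixes `α`. -/
theorem omap_zd (hσα : σ α = α) (hc : ∀ x, σ (ρ x) = ρ (σ x)) (s s' t : E)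
    (y : OctL E a b c) :
    omap σ (zd ρ α s s' t y) = zd ρ α (σ s) (σ s') (σ t) (omap σ y) := by
  have h1 : ∀ x : Qt (up E a) (up E b), qmap σ (qmap ρ x) = qmap ρ (qmap σ x) := fun x => by
    ext <;> simp [hc]
  unfold zd
  ext1
  · rw [fomap, fst_zFun, fst_zFun, qmap_mul, qmap_mul, qmap_star, h1, h1, qmap_dd hσα,
      fomap]
  · rw [somap, snd_zFun, snd_zFun, qmap_smul, qmap_mul, qmap_mul, qmap_star, h1,
      qmap_dd hσα, somap, qmap_one]

/-- Commutation with an automorphism which changes the sign of `α`. -/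
theorem omap_zd' (hσα : σ α = -α) (hc : ∀ x, σ (ρ x) = ρ (σ x)) (s s' t : E)
    (y : OctL E a b c) :
    omap σ (zd ρ α s s' t y) = zd ρ α (σ s') (σ s) (σ t) (omap σ y) := by
  have h1 : ∀ x : Qt (up E a) (up E b), qmap σ (qmap ρ x) = qmap ρ (qmap σ x) := fun x => by
    ext <;> simp [hc]
  unfold zd
  ext1
  · rw [fomap, fst_zFun, fst_zFun, qmap_mul, qmap_mul, qmap_star, h1, h1, qmap_dd' hσα,
      fomap]
  · rw [somap, snd_zFun, snd_zFun, qmap_smul, qmap_mul, qmap_mul, qmap_star, h1,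
      qmap_dd' hσα, somap, qmap_one]

/-- The map `J` of the trialitarian group. -/
theorem Jq_zd [NeZero (2 : E)] {q q' q'' : E} (h : HJ a ρ σ α q q' q'') (y : OctL E a b c) :
    Jq σ α q q' y = (q * q') • zd ρ α q 1 (q' ⁻¹) (omap σ y) := by
  have hα := h.al
  have hn := h.N
  have h0 : q' ≠ 0 := h.q1_ne
  unfold zd Jq
  ext1
  · change mq a b α q * qmap σ y.fst * mq a b α (q * q') = _
    rw [fst_smul, fst_zFun, mq_dd, mq_dd, fomap, qmap_dd h.ra, qmap_dd h.ra, star_dd, h.r0,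
      h.r1, map_one, map_one, ← mul_smul_comm, smul_dd, mul_one, ← hn]
  · change qmap σ y.snd * (mq a b α q * star (mq a b α (q * q'))) = _
    rw [snd_smul, snd_zFun, mq_dd, mq_dd, somap, qmap_dd h.ra, star_dd, star_dd, h.r0,
      dd_mul hα, map_one, one_mul, smul_smul, ← mul_smul_comm, smul_dd]
    have e1 : q * q' * q'⁻¹ * 1 = q * 1 := by field_simp
    have e2 : q * q' * q'⁻¹ * q' = 1 * (q * q') := by field_simp
    rw [e1, e2, one_mul, one_mul]

end diag

section torus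

variable {k E : Type} [Field k] [Field E] [Algebra k E]

/-- The hypotheses: `φ = p e₊ + m e₋`, where `p` and `m` are exchanged by `s` and by `su`. -/
structure HT (a : kˣ) (ρ s su ι : E ≃ₐ[k] E) (α p m n : E) : Prop where
  al : α * α = algebraMap k E a
  ρα : ρ α = α
  sα : s α = α
  suα : su α = -α
  ια : ι α = α
  sp : s p = m
  sm : s m = p
  sup : su p = m
  sum : su m = p
  ιp : ι p = ρ (ρ p)
  ιm : ι m = ρ (ρ m)
  n0 : n ≠ 0
  ρn : ρ n = n
  sn : s n = n
  sun : su n = n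
  ιn : ι n = n
  Np : p * ρ p * ρ (ρ p) = n
  Nm : m * ρ m * ρ (ρ m) = n
  cs : ∀ x, s (ρ x) = ρ (s x)
  csu : ∀ x, su (ρ x) = ρ (su x)
  ρ3 : ∀ x, ρ (ρ (ρ x)) = x
  su2 : ∀ x, su (su x) = x
  ι2 : ∀ x, ι (ι x) = x
  ιρ : ∀ x, ι (ρ x) = ρ (ρ (ι x))

namespace HT

variable {a b c : kˣ} {ρ s su ι : E ≃ₐ[k] E} {α p m n : E} (h : HT a ρ s su ι α p m n)

/-- The first coordinate of the torus element. -/
def xx (p m n : E) : E := p ^ 2 * m / n

/-- The element `q`. -/
def qq (p m n : E) : E := n ^ 2 / (p * m) ^ 3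

include h

theorem p0 : p ≠ 0 := by
  rintro rfl
  exact h.n0 (by rw [← h.Np, zero_mul, zero_mul])

theorem m0 : m ≠ 0 := by
  rintro rfl
  exact h.n0 (by rw [← h.Nm, zero_mul, zero_mul])

theorem x0 : xx p m n ≠ 0 :=
  div_ne_zero (mul_ne_zero (pow_ne_zero _ h.p0) h.m0) h.n0

theorem Nx : xx p m n * ρ (xx p m n) * ρ (ρ (xx p m n)) = 1 := by
  have hn := h.n0
  have h1 := h.Np
  have h2 := h.Nm
  unfold xx
  rw [map_div₀, map_mul, map_pow, map_div₀, map_mul, map_pow, h.ρn, h.ρn]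
  have e : p ^ 2 * m / n * (ρ p ^ 2 * ρ m / n) * (ρ (ρ p) ^ 2 * ρ (ρ m) / n) =
      (p * ρ p * ρ (ρ p)) ^ 2 * (m * ρ m * ρ (ρ m)) / n ^ 3 := by
    field_simp
  rw [e, h1, h2]
  field_simp

theorem q0 : qq p m n ≠ 0 :=
  div_ne_zero (pow_ne_zero _ h.n0) (pow_ne_zero _ (mul_ne_zero h.p0 h.m0))

theorem Nq : qq p m n * ρ (qq p m n) * ρ (ρ (qq p m n)) = 1 := by
  have hn := h.n0
  have h1 := h.Np
  have h2 := h.Nm
  have hp := h.p0
  have hm := h.m0
  have hp1 : ρ p ≠ 0 := (map_ne_zero ρ).2 hp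
  have hm1 : ρ m ≠ 0 := (map_ne_zero ρ).2 hm
  have hp2 : ρ (ρ p) ≠ 0 := (map_ne_zero ρ).2 hp1
  have hm2 : ρ (ρ m) ≠ 0 := (map_ne_zero ρ).2 hm1
  unfold qq
  simp only [map_div₀, map_mul, map_pow, h.ρn]
  have e : n ^ 2 / (p * m) ^ 3 * (n ^ 2 / (ρ p * ρ m) ^ 3) * (n ^ 2 / (ρ (ρ p) * ρ (ρ m)) ^ 3) =
      n ^ 6 / ((p * ρ p * ρ (ρ p)) ^ 3 * (m * ρ m * ρ (ρ m)) ^ 3) := by
    field_simp
  rw [e, h1, h2]
  field_simp

theorem hj : HJ a ρ su α (qq p m n) (ρ (qq p m n)) (ρ (ρ (qq p m n))) where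
  al := h.al
  ra := h.ρα
  sa := h.suα
  r0 := rfl
  r1 := rfl
  r2 := h.ρ3 _
  s0 := by
    unfold qq
    simp only [map_div₀, map_mul, map_pow, h.sun, h.sup, h.sum, mul_comm m p]
  N := h.Nq
  rs x := (h.csu x).symm
  r3 := h.ρ3
  s2 := h.su2

/-- The torus element. -/
noncomputable def Zt [NeZero (2 : E)] (b c : kˣ) : OctL E a b c ≃ₗ[E] OctL E a b c :=
  zE ρ (dd a b α (xx p m n) 1) 1 (ρ (xx p m n))⁻¹
    (by rw [nrd_dd h.al, mul_one]; exact h.x0)
    (by simp [nrd]) (inv_ne_zero ((map_ne_zero ρ).2 h.x0))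

theorem Zt_apply [NeZero (2 : E)] (y : OctL E a b c) :
    h.Zt b c y = zd ρ α (xx p m n) 1 (ρ (xx p m n))⁻¹ y := rfl

end HT

/-- The semilinear map `J` attached to `φ = p e₊ + m e₋`. -/
def Jf (ρ s : E ≃ₐ[k] E) (α p m n : E) {a b c : kˣ} (y : OctL E a b c) : OctL E a b c :=
  zd ρ α p m (n / ρ (p * m)) (omap s y)

namespace HT

variable {a b c : kˣ} {ρ s su ι : E ≃ₐ[k] E} {α p m n : E} (h : HT a ρ s su ι α p m n)
include h

/-- The torus element carries `s` to the map `J`, up to a scalar. -/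
theorem T1 [NeZero (2 : E)] (y : OctL E a b c) :
    Jf ρ s α p m n (h.Zt b c y) = (m * ρ (ρ m)) • h.Zt b c (omap s y) := by
  have hn := h.n0
  have hp := h.p0
  have hm := h.m0
  have hp1 : ρ p ≠ 0 := (map_ne_zero ρ).2 hp
  have hm1 : ρ m ≠ 0 := (map_ne_zero ρ).2 hm
  rw [Zt_apply, Zt_apply, Jf, omap_zd h.sα h.cs, zd_zd h.al, ← zd_scal]
  · congr 1
    · unfold xx
      simp only [map_div₀, map_mul, map_pow, h.sn, h.sp, h.sm]
      field_simp
    · rw [map_one]
  · unfold xx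
    rw [map_inv₀, h.cs]
    simp only [map_div₀, map_mul, map_pow, h.sn, h.sp, h.sm, h.ρn]
    have e := h.Nm
    field_simp
    rw [← e]
    ring

/-- The torus element carries the map `J` of the trialitarian group to `su`, up to a scalar. -/
theorem T2 [NeZero (2 : E)] (y : OctL E a b c) :
    (qq p m n * ρ (qq p m n)) • omap su (h.Zt b c y) =
      (su (xx p m n) * ρ (ρ (su (xx p m n)))) •
        h.Zt b c (Jq su α (qq p m n) (ρ (qq p m n)) y) := by
  have hn := h.n0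
  have hp := h.p0
  have hm := h.m0
  have hx := h.x0
  have hp1 : ρ p ≠ 0 := (map_ne_zero ρ).2 hp
  have hm1 : ρ m ≠ 0 := (map_ne_zero ρ).2 hm
  rw [Jq_zd h.hj, map_smul, Zt_apply, Zt_apply, omap_zd' h.suα h.csu, zd_zd h.al, smul_comm]
  congr 1
  rw [← zd_scal]
  · congr 1
    · unfold xx qq
      simp only [map_div₀, map_mul, map_pow, map_one, h.sun, h.sup, h.sum]
      field_simp
    · rw [mul_one, mul_one]
  · have e := h.Nx
    have e1 := congrArg su e
    rw [map_mul, map_mul, h.csu, h.csu, h.csu, map_one] at e1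
    rw [map_inv₀, h.csu]
    have e2 : ρ (xx p m n) * ρ (qq p m n) * ρ (su (xx p m n)) = 1 := by
      rw [← map_mul, ← map_mul]
      have : xx p m n * qq p m n * su (xx p m n) = 1 := by
        unfold xx qq
        simp only [map_div₀, map_mul, map_pow, h.sun, h.sup, h.sum]
        field_simp
      rw [this, map_one]
    have h1 : ρ (su (xx p m n)) ≠ 0 := (map_ne_zero ρ).2 ((map_ne_zero su).2 hx)
    have h2 : ρ (xx p m n) ≠ 0 := (map_ne_zero ρ).2 hx
    have h3 : ρ (qq p m n) ≠ 0 := (map_ne_zero ρ).2 h.q0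
    field_simp
    apply mul_right_cancel₀ h1
    linear_combination e1 - e2

/-- The torus element commutes with the involution. -/
theorem T3 [NeZero (2 : E)] (y : OctL E a b c) : h.Zt b c (Im ι y) = Im ι (h.Zt b c y) := by
  have e : ι (xx p m n) = ρ (ρ (xx p m n)) := by
    unfold xx
    simp only [map_div₀, map_mul, map_pow, h.ιn, h.ιp, h.ιm, h.ρn]
  refine D4Y.zFun_Im h.ι2 h.ρ3 h.ιρ ?_ (qmap_one ι) ?_ y
  · rw [qmap_dd h.ια, qmap_dd h.ρα, qmap_dd h.ρα, e, map_one, map_one, map_one]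
  · rw [map_inv₀, h.ιρ, e, h.ρ3]

/-- The torus element is a similitude of the cyclic composition. -/
theorem T4 [NeZero (2 : E)] (x y : OctL E a b c) :
    ρ (xx p m n) • h.Zt b c (tri ρ x y) = tri ρ (h.Zt b c x) (h.Zt b c y) := by
  have hx := h.x0
  have h2 : ρ (xx p m n) ≠ 0 := (map_ne_zero ρ).2 hx
  have h3 : ρ (ρ (xx p m n)) ≠ 0 := (map_ne_zero ρ).2 h2
  have hN := h.Nx
  have e1 : nrd (1 : Qt (up E a) (up E b)) = 1 := by simp [nrd]
  have e2 : nrd (dd a b α (xx p m n) 1) = xx p m n := by rw [nrd_dd h.al, mul_one]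
  have e := zFun_tri (ρ := ρ) (a := a) (b := b) (c := c) h.ρ3 (X := dd a b α (xx p m n) 1)
    (w := 1) (t := (ρ (xx p m n))⁻¹) (qmap_one ρ) (by
      rw [e1, e2, map_inv₀, map_inv₀, h.ρ3, mul_one]
      field_simp
      linear_combination -hN) (by
      rw [e2, map_inv₀, map_inv₀, h.ρ3]
      field_simp) (by
      rw [e2, map_inv₀]
      field_simp) x y
  rw [e2] at e
  exact e

end HT

end torus

end Vale.Agent.P011.E6W.H7
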